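import Vale.Agent.P011.H465.Topo
import Mathlib.Algebra.MvPolynomial.Eval
import Mathlib.LinearAlgebra.Matrix.Determinant.Basic
import Mathlib.LinearAlgebra.Basis.VectorSpace
import Mathlib.LinearAlgebra.FreeModule.Finite.Basic

/-!
The reduced norm is continuous: it is a polynomial function with coefficients in the centre.
-/

open Topology Filter Module

namespace Vale.Agent.P011.H465

variable {K D Ω : Type*} [Field K] [DivisionRing D] [Algebra K D] [FiniteDimensional K D]
  [Field Ω] [Algebra K Ω] {n : ℕ}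

/-- The reduced norm is a polynomial function with coefficients in the centre. -/
theorem nrd_poly {N : ℕ} (b : Basis (Fin N) K D) (f : D →ₐ[K] Matrix (Fin n) (Fin n) Ω)
    {nrd : D → K} (h : ∀ x, algebraMap K Ω (nrd x) = (f x).det) :
    ∃ (S : Finset (Fin N →₀ ℕ)) (a : (Fin N →₀ ℕ) → K), ∀ x,
      nrd x = ∑ m ∈ S, a m * ∏ l, (b.coord l x) ^ (m l) := by
  classical
  obtain ⟨lam, hlam⟩ : ∃ lam : Ω →ₗ[K] K, ∀ c : K, lam (algebraMap K Ω c) = c := by
    obtain ⟨g, hg⟩ := LinearMap.exists_leftInverse_of_injective (Algebra.linearMap K Ω)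
      (LinearMap.ker_eq_bot.mpr (algebraMap K Ω).injective)
    exact ⟨g, fun c => by
      have := LinearMap.congr_fun hg c
      simpa using this⟩
  let A : Matrix (Fin n) (Fin n) (MvPolynomial (Fin N) Ω) :=
    Matrix.of fun i j => ∑ l, MvPolynomial.C (f (b l) i j) * MvPolynomial.X l
  have hA : ∀ x, MvPolynomial.eval (fun l => algebraMap K Ω (b.coord l x)) A.det = (f x).det := by
    intro x
    rw [RingHom.map_det]
    congr 1
    ext i j
    rw [RingHom.mapMatrix_apply, Matrix.map_apply]
    have h1 : f x = ∑ l, b.coord l x • f (b l) := by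
      conv_lhs => rw [← b.sum_repr x]
      rw [map_sum]
      exact Finset.sum_congr rfl fun l _ => map_smul f _ _
    rw [h1, Matrix.sum_apply]
    simp only [A, Matrix.of_apply, map_sum, map_mul, MvPolynomial.eval_C, MvPolynomial.eval_X,
      Matrix.smul_apply]
    exact Finset.sum_congr rfl fun l _ => by rw [Algebra.smul_def, mul_comm]
  refine ⟨A.det.support, fun m => lam (A.det.coeff m), fun x => ?_⟩
  have h1 : nrd x = lam (A.det.support.sum fun m => A.det.coeff m *
      ∏ l, (algebraMap K Ω (b.coord l x)) ^ (m l)) := by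
    rw [← MvPolynomial.eval_eq', hA, ← h, hlam]
  rw [h1, map_sum]
  refine Finset.sum_congr rfl fun m _ => ?_
  have h2 : A.det.coeff m * ∏ l, (algebraMap K Ω (b.coord l x)) ^ (m l) =
      (∏ l, (b.coord l x) ^ (m l)) • A.det.coeff m := by
    rw [Algebra.smul_def, map_prod, mul_comm]
    simp only [map_pow]
  rw [h2, map_smul, smul_eq_mul, mul_comm]

/-- The reduced norm is continuous. -/
theorem nrd_cont [TopologicalSpace D] [IsTopologicalRing D]
    (hlin : ∀ Λ : D →ₗ[K] K, Continuous fun x => algebraMap K D (Λ x))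
    (f : D →ₐ[K] Matrix (Fin n) (Fin n) Ω) {nrd : D → K}
    (h : ∀ x, algebraMap K Ω (nrd x) = (f x).det) :
    Continuous fun x => algebraMap K D (nrd x) := by
  classical
  obtain ⟨S, a, hS⟩ := nrd_poly (Module.finBasis K D) f h
  let _ : TopologicalSpace K := TopologicalSpace.induced (algebraMap K D) inferInstance
  have : ContinuousAdd K := continuousAdd_induced (algebraMap K D)
  have : ContinuousMul K := continuousMul_induced (algebraMap K D)
  have hlin' : ∀ Λ : D →ₗ[K] K, Continuous Λ := fun Λ => continuous_induced_rng.mpr (hlin Λ)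
  have h1 : Continuous nrd := by
    have : nrd = fun x => ∑ m ∈ S, a m * ∏ l, ((Module.finBasis K D).coord l x) ^ (m l) :=
      funext hS
    rw [this]
    refine continuous_finsetSum _ fun m _ => continuous_const.mul ?_
    exact continuous_finsetProd _ fun l _ => (hlin' _).pow _
  exact continuous_induced_dom.comp h1

/-- The reduced norm of an element close to one is close to one. -/
theorem nrd_near_one {ι : Type*} [Finite ι] [Nonempty ι] {ν : ι → AbsoluteValue D ℝ}
    (hlin : ∀ (Λ : D →ₗ[K] K) (i : ι), ∃ C : ℝ, ∀ x, ν i (algebraMap K D (Λ x)) ≤ C * ν i x)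
    (f : D →ₐ[K] Matrix (Fin n) (Fin n) Ω) {nrd : D → K}
    (h : ∀ x, algebraMap K Ω (nrd x) = (f x).det) {ε : ℝ} (hε : 0 < ε) :
    ∃ δ : ℝ, 0 < δ ∧ ∀ x : D, (∀ i, ν i (x - 1) < δ) →
      ∀ i, ν i (algebraMap K D (nrd x) - 1) < ε := by
  let _ := topo ν
  have _ : IsTopologicalRing D := isTopologicalRing_topo ν
  have hlin' : ∀ Λ : D →ₗ[K] K, Continuous fun x => algebraMap K D (Λ x) := fun Λ => by
    refine continuous_topo ν (fun x y => by rw [map_sub, map_sub]) fun i => ?_
    obtain ⟨C, hC⟩ := hlin Λ i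
    exact ⟨C, i, hC⟩
  have h1 := (nrd_cont hlin' f h).continuousAt (x := 1)
  have h2 : algebraMap K D (nrd 1) = 1 := by
    have h3 : algebraMap K Ω (nrd 1) = algebraMap K Ω 1 := by
      rw [h, map_one, Matrix.det_one, map_one]
    rw [(algebraMap K Ω).injective h3, map_one]
  have h4 : {y : D | ∀ i, ν i (y - 1) < ε} ∈ 𝓝 (algebraMap K D (nrd 1)) := by
    rw [h2]
    exact (mem_nhds_topo ν).mpr ⟨ε, hε, fun y hy => hy⟩
  obtain ⟨δ, hδ, hb⟩ := (mem_nhds_topo ν).mp (h1 h4)
  exact ⟨δ, hδ, fun x hx => hb x hx⟩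

end Vale.Agent.P011.H465
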