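import Vale.Agent.P011.H465.Gen

/-!
**Abelian quotients without continuity are central**, final form: `N ≤ H ≤ G` are normal in the
unitary group `U`, `H` contains the elements of `G` close to one, `N` is dense in `H`, `H / N` is
abelian, and the commutators of `U` are dense in `G`. Then `G` acts trivially on `H / N`.
-/

open Topology Polynomial Filter commutatorElement

namespace Vale.Agent.P011.H465

section stab

variable {D : Type*} [DivisionRing D] [StarRing D]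

/-- The unitary elements acting trivially on `H / N`. -/
def stab {N : Subgroup Dˣ} (H : Subgroup Dˣ) (hN : ∀ u ∈ UD D, ∀ x ∈ N, u * x * u⁻¹ ∈ N) :
    Subgroup Dˣ where
  carrier := {u | u ∈ UD D ∧ ∀ h ∈ H, ⁅u, h⁆ ∈ N}
  one_mem' := ⟨(UD D).one_mem, fun h _ => by
    rw [commutatorElement_one_left]
    exact N.one_mem⟩
  mul_mem' := by
    rintro a b ⟨ha, ha'⟩ ⟨hb, hb'⟩
    refine ⟨(UD D).mul_mem ha hb, fun h hh => ?_⟩
    have h1 : ⁅a * b, h⁆ = (a * ⁅b, h⁆ * a⁻¹) * ⁅a, h⁆ := by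
      simp only [commutatorElement_def]; group
    rw [h1]
    exact N.mul_mem (hN a ha _ (hb' h hh)) (ha' h hh)
  inv_mem' := by
    rintro a ⟨ha, ha'⟩
    refine ⟨(UD D).inv_mem ha, fun h hh => ?_⟩
    have h1 : ⁅a⁻¹, h⁆ = a⁻¹ * ⁅a, h⁆⁻¹ * a⁻¹⁻¹ := by
      simp only [commutatorElement_def]; group
    rw [h1]
    exact hN a⁻¹ ((UD D).inv_mem ha) _ (N.inv_mem (ha' h hh))

end stab

section main

variable {K D : Type*} [Field K] [DivisionRing D] [StarRing D] [Algebra K D]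
  [FiniteDimensional K D] [TopologicalSpace D] [IsTopologicalRing D] [ContinuousInv₀ D]
  [ContinuousStar D] [T1Space D]

/-- The commutators of unitary elements act trivially on `H / N`. -/
theorem comm_le_stab (hlin : ∀ Λ : D →ₗ[K] K, Continuous fun x => algebraMap K D (Λ x))
    {c : ℕ → K} (hc0 : ∀ j, c j ≠ 0)
    (hcs : ∀ j, star (algebraMap K D (c j)) = -algebraMap K D (c j))
    (hct : Tendsto (fun j => algebraMap K D (c j)) atTop (𝓝 0))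
    {n m : ℕ} (hM : ((n * m : ℕ) : K) ≠ 0) (h2K : (2 : K) ≠ 0) {N H G : Subgroup Dˣ}
    (hHU : H ≤ UD D) (hNH : N ≤ H) (hcomm : ⁅UD D, UD D⁆ ≤ G)
    (hm : ∀ g ∈ G, g ^ m ∈ H)
    (hnorm : ∀ u ∈ UD D, ∃ a : K, a ≠ 0 ∧ ∃ g ∈ G, (g : D) = algebraMap K D a * (u : D) ^ n)
    (hN : ∀ u ∈ UD D, ∀ x ∈ N, u * x * u⁻¹ ∈ N)
    (hab : ⁅H, H⁆ ≤ N)
    (hopen : ∃ O ∈ 𝓝 (1 : D), ∀ g ∈ G, (g : D) ∈ O → g ∈ H)
    (hdense : ∀ h ∈ H, ∀ O ∈ 𝓝 (h : D), ∃ x ∈ N, (x : D) ∈ O) :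
    ⁅UD D, UD D⁆ ≤ stab H hN := by
  rw [Subgroup.commutator_le]
  intro u₁ hu₁ u₂ hu₂
  refine ⟨?_, fun h hh => ?_⟩
  · rw [commutatorElement_def]
    exact (UD D).mul_mem ((UD D).mul_mem ((UD D).mul_mem hu₁ hu₂) ((UD D).inv_mem hu₁))
      ((UD D).inv_mem hu₂)
  · exact comm_comm (K := K) hHU hNH hcomm hN hab hopen hdense hu₁ hu₂
      (exists_mem_adjoin hlin hc0 hcs hct hM h2K hm hnorm hu₁)
      (exists_mem_adjoin hlin hc0 hcs hct hM h2K hm hnorm hu₂) hh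

/-- **The whole group `G` acts trivially on `H / N`.** -/
theorem comm_mem (hlin : ∀ Λ : D →ₗ[K] K, Continuous fun x => algebraMap K D (Λ x))
    {c : ℕ → K} (hc0 : ∀ j, c j ≠ 0)
    (hcs : ∀ j, star (algebraMap K D (c j)) = -algebraMap K D (c j))
    (hct : Tendsto (fun j => algebraMap K D (c j)) atTop (𝓝 0))
    {n m : ℕ} (hM : ((n * m : ℕ) : K) ≠ 0) (h2K : (2 : K) ≠ 0) {N H G : Subgroup Dˣ}
    (hHG : H ≤ G) (hGU : G ≤ UD D) (hNH : N ≤ H) (hcomm : ⁅UD D, UD D⁆ ≤ G)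
    (hm : ∀ g ∈ G, g ^ m ∈ H)
    (hnorm : ∀ u ∈ UD D, ∃ a : K, a ≠ 0 ∧ ∃ g ∈ G, (g : D) = algebraMap K D a * (u : D) ^ n)
    (hN : ∀ u ∈ UD D, ∀ x ∈ N, u * x * u⁻¹ ∈ N)
    (hab : ⁅H, H⁆ ≤ N)
    (hopen : ∃ O ∈ 𝓝 (1 : D), ∀ g ∈ G, (g : D) ∈ O → g ∈ H)
    (hdense : ∀ h ∈ H, ∀ O ∈ 𝓝 (h : D), ∃ x ∈ N, (x : D) ∈ O)
    (hdU : ∀ g ∈ G, ∀ O ∈ 𝓝 (1 : D), ∃ w ∈ ⁅UD D, UD D⁆, ((w⁻¹ * g : Dˣ) : D) ∈ O)
    {g h : Dˣ} (hg : g ∈ G) (hh : h ∈ H) : ⁅g, h⁆ ∈ N := by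
  have hle := comm_le_stab hlin hc0 hcs hct hM h2K (hHG.trans hGU) hNH hcomm hm hnorm hN hab
    hopen hdense
  obtain ⟨O, hO, hOG⟩ := hopen
  obtain ⟨w, hw, hwO⟩ := hdU g hg O hO
  have h1 : w⁻¹ * g ∈ H := hOG _ (G.mul_mem (G.inv_mem (hcomm hw)) hg) hwO
  have h2 : w⁻¹ * g ∈ stab H hN :=
    ⟨hGU (hHG h1), fun x hx => hab (Subgroup.commutator_mem_commutator h1 hx)⟩
  have h3 : g = w * (w⁻¹ * g) := by group
  have h4 : g ∈ stab H hN := by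
    rw [h3]
    exact (stab H hN).mul_mem (hle hw) h2
  exact h4.2 h hh

end main

end Vale.Agent.P011.H465
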