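import Vale.Agent.P011.H465.Topo
import Vale.Agent.P011.H465.Triv

/-!
**Commutators close to one lie in every large subgroup.** Let `V` be the group of the unitary
elements of reduced norm one close to one. A subgroup `M` which contains the commutators and the
`m`-th powers of `V` contains the commutators `⁅g, v⁆` of the unitary elements of reduced norm one
`g` and `v` with `v` close enough to one. No continuity is assumed of `M`.
-/

open Topology Filter commutatorElement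

set_option linter.unusedSectionVars false

namespace Vale.Agent.P011.H465

section defs

variable {K D : Type*} [Field K] [DivisionRing D] [StarRing D] {ι : Type*}
  {ν : ι → AbsoluteValue D ℝ}

/-- The unitary elements of reduced norm one. -/
def GN (nrd : D →* K) : Subgroup Dˣ := UD D ⊓ (Units.map nrd).ker

theorem mem_GN {nrd : D →* K} {g : Dˣ} : g ∈ GN nrd ↔ g ∈ UD D ∧ nrd (g : D) = 1 := by
  rw [GN, Subgroup.mem_inf, MonoidHom.mem_ker, Units.ext_iff, Units.coe_map, Units.val_one]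

theorem GN_conj {nrd : D →* K} {u g : Dˣ} (hu : u ∈ UD D) (hg : g ∈ GN nrd) :
    u * g * u⁻¹ ∈ GN nrd := by
  rw [mem_GN] at hg ⊢
  refine ⟨(UD D).mul_mem ((UD D).mul_mem hu hg.1) ((UD D).inv_mem hu), ?_⟩
  rw [Units.val_mul, Units.val_mul, map_mul, map_mul, hg.2, mul_one, ← map_mul, Units.mul_inv,
    map_one]

theorem comm_le_GN (nrd : D →* K) : ⁅UD D, UD D⁆ ≤ GN nrd := by
  rw [Subgroup.commutator_le]
  intro u hu v hv
  rw [mem_GN]
  refine ⟨?_, ?_⟩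
  · rw [commutatorElement_def]
    exact (UD D).mul_mem ((UD D).mul_mem ((UD D).mul_mem hu hv) ((UD D).inv_mem hu))
      ((UD D).inv_mem hv)
  · have h1 : nrd (u : D) * nrd ((u⁻¹ : Dˣ) : D) = 1 := by rw [← map_mul, Units.mul_inv, map_one]
    have h2 : nrd (v : D) * nrd ((v⁻¹ : Dˣ) : D) = 1 := by rw [← map_mul, Units.mul_inv, map_one]
    rw [commutatorElement_def, Units.val_mul, Units.val_mul, Units.val_mul, map_mul, map_mul,
      map_mul, mul_right_comm (nrd (u : D)), h1, one_mul, h2]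

theorem conj_near {u g : Dˣ} (i : ι) :
    ν i (((u * g * u⁻¹ : Dˣ) : D) - 1) = ν i ((g : D) - 1) := by
  have h1 : ((u * g * u⁻¹ : Dˣ) : D) - 1 = (u : D) * ((g : D) - 1) * ((u⁻¹ : Dˣ) : D) := by
    rw [mul_sub, sub_mul, mul_one, Units.mul_inv, Units.val_mul, Units.val_mul]
  have h2 : ν i (u : D) * ν i ((u⁻¹ : Dˣ) : D) = 1 := by rw [← map_mul, Units.mul_inv, map_one]
  rw [h1, map_mul, map_mul, mul_right_comm, h2, one_mul]

/-- The unitary elements of reduced norm one close to one. -/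
def VN (hu : ∀ i x y, ν i (x + y) ≤ max (ν i x) (ν i y)) (nrd : D →* K) {ε : ℝ} (h0 : 0 < ε)
    (h1 : ε ≤ 1) : Subgroup Dˣ where
  carrier := {g | g ∈ GN nrd ∧ ∀ i, ν i ((g : D) - 1) < ε}
  one_mem' := ⟨(GN nrd).one_mem, fun i => by rw [Units.val_one, sub_self, map_zero]; exact h0⟩
  mul_mem' := by
    rintro a b ⟨ha, ha'⟩ ⟨hb, hb'⟩
    refine ⟨(GN nrd).mul_mem ha hb, fun i => ?_⟩
    have h2 : ((a * b : Dˣ) : D) - 1 = (a : D) * ((b : D) - 1) + ((a : D) - 1) := by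
      rw [Units.val_mul, mul_sub, mul_one, sub_add_sub_cancel]
    have h3 : ν i (a : D) = 1 := by
      rw [← nu_one (ν := ν i)]
      exact nu_eq (hu i) (by rw [nu_one]; exact (ha' i).trans_le h1)
    rw [h2]
    refine lt_of_le_of_lt (hu i _ _) (max_lt ?_ (ha' i))
    rw [map_mul, h3, one_mul]
    exact hb' i
  inv_mem' := by
    rintro a ⟨ha, ha'⟩
    refine ⟨(GN nrd).inv_mem ha, fun i => ?_⟩
    have h3 : ν i (a : D) = 1 := by
      rw [← nu_one (ν := ν i)]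
      exact nu_eq (hu i) (by rw [nu_one]; exact (ha' i).trans_le h1)
    have h2 : ((a⁻¹ : Dˣ) : D) - 1 = -(((a⁻¹ : Dˣ) : D) * ((a : D) - 1)) := by
      rw [mul_sub, Units.inv_mul, mul_one, neg_sub]
    rw [h2, AbsoluteValue.map_neg, map_mul, Units.val_inv_eq_inv_val, nu_inv, h3, inv_one,
      one_mul]
    exact ha' i

theorem mem_VN {hu : ∀ i x y, ν i (x + y) ≤ max (ν i x) (ν i y)} {nrd : D →* K} {ε : ℝ}
    {h0 : 0 < ε} {h1 : ε ≤ 1} {g : Dˣ} :
    g ∈ VN hu nrd h0 h1 ↔ g ∈ GN nrd ∧ ∀ i, ν i ((g : D) - 1) < ε := Iff.rfl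

/-- The largest subgroup of `M` normalised by the unitary group. -/
def core (M : Subgroup Dˣ) : Subgroup Dˣ where
  carrier := {x | ∀ u ∈ UD D, u * x * u⁻¹ ∈ M}
  one_mem' := fun u _ => by rw [mul_one, mul_inv_cancel]; exact M.one_mem
  mul_mem' := by
    intro a b ha hb u hu
    have h1 : u * (a * b) * u⁻¹ = (u * a * u⁻¹) * (u * b * u⁻¹) := by group
    rw [h1]
    exact M.mul_mem (ha u hu) (hb u hu)
  inv_mem' := by
    intro a ha u hu
    have h1 : u * a⁻¹ * u⁻¹ = (u * a * u⁻¹)⁻¹ := by group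
    rw [h1]
    exact M.inv_mem (ha u hu)

theorem core_le (M : Subgroup Dˣ) : core M ≤ M := fun x hx => by
  have h1 := hx 1 (UD D).one_mem
  rwa [one_mul, inv_one, mul_one] at h1

theorem core_conj {M : Subgroup Dˣ} {u x : Dˣ} (hu : u ∈ UD D) (hx : x ∈ core M) :
    u * x * u⁻¹ ∈ core M := fun v hv => by
  have h1 : v * (u * x * u⁻¹) * v⁻¹ = (v * u) * x * (v * u)⁻¹ := by group
  rw [h1]
  exact hx _ ((UD D).mul_mem hv hu)

end defs

section main

variable {K D : Type*} [Field K] [CharZero K] [DivisionRing D] [StarRing D] [Algebra K D]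
  [FiniteDimensional K D] {ι : Type*} [Finite ι] [Nonempty ι] {ν : ι → AbsoluteValue D ℝ}

/-- **Commutators close to one lie in every large subgroup.** -/
theorem open_comm (hu : ∀ i x y, ν i (x + y) ≤ max (ν i x) (ν i y))
    (hs : ∀ i, ∃ j, ∀ x, ν i (star x) = ν j x)
    (hlin : ∀ (Λ : D →ₗ[K] K) (i : ι), ∃ C : ℝ, ∀ x, ν i (algebraMap K D (Λ x)) ≤ C * ν i x)
    {s b : K} (hs0 : s ≠ 0) (hsn : star (algebraMap K D s) = -algebraMap K D s) (hb0 : b ≠ 0)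
    (hbs : star (algebraMap K D b) = algebraMap K D b) (hb : ∀ i, ν i (algebraMap K D b) < 1)
    (nrd : D →* K) {n : ℕ} (hn : 0 < n) (hna : ∀ a : K, nrd (algebraMap K D a) = a ^ n)
    (hns : ∀ x, algebraMap K D (nrd (star x)) = star (algebraMap K D (nrd x)))
    (hnc : ∀ ε : ℝ, 0 < ε → ∃ δ : ℝ, 0 < δ ∧ ∀ x : D, (∀ i, ν i (x - 1) < δ) →
      ∀ i, ν i (algebraMap K D (nrd x) - 1) < ε)
    (hdU : ∀ g ∈ GN nrd, ∀ ε : ℝ, 0 < ε → ∃ w ∈ ⁅UD D, UD D⁆,
      ∀ i, ν i (((w⁻¹ * g : Dˣ) : D) - 1) < ε)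
    (hexp : ∀ ε : ℝ, 0 < ε → ∃ m : ℕ, 0 < m ∧ ∀ g ∈ GN nrd, ∀ i, ν i ((g : D) ^ m - 1) < ε)
    {M : Subgroup Dˣ} {m : ℕ} (hm : 0 < m) {ε₀ : ℝ} (hε₀ : 0 < ε₀)
    (hMab : ∀ g ∈ GN nrd, (∀ i, ν i ((g : D) - 1) < ε₀) → ∀ h ∈ GN nrd,
      (∀ i, ν i ((h : D) - 1) < ε₀) → ⁅g, h⁆ ∈ M)
    (hMpow : ∀ g ∈ GN nrd, (∀ i, ν i ((g : D) - 1) < ε₀) → g ^ m ∈ M) :
    ∃ ε : ℝ, 0 < ε ∧ ∀ g ∈ GN nrd, ∀ v ∈ GN nrd, (∀ i, ν i ((v : D) - 1) < ε) → ⁅g, v⁆ ∈ M := by
  classical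
  have : CharZero D := charZero_of_injective_algebraMap (algebraMap K D).injective
  -- the topology
  let _ := topo ν
  have _ : IsTopologicalRing D := isTopologicalRing_topo ν
  have _ : T1Space D := t1_topo ν
  have _ : ContinuousStar D := continuousStar_topo ν hs
  have _ : ContinuousInv₀ D := continuousInv_topo ν hu
  have hlin' : ∀ Λ : D →ₗ[K] K, Continuous fun x => algebraMap K D (Λ x) := fun Λ => by
    refine continuous_topo ν (fun x y => by rw [map_sub, map_sub]) fun i => ?_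
    obtain ⟨C, hC⟩ := hlin Λ i
    exact ⟨C, i, hC⟩
  have hct : Tendsto (fun j : ℕ => algebraMap K D (s * b ^ j)) atTop (𝓝 0) := by
    refine (tendsto_topo ν).mpr fun i => ?_
    have h1 : Tendsto (fun j : ℕ => ν i (algebraMap K D s) * ν i (algebraMap K D b) ^ j) atTop
        (𝓝 (ν i (algebraMap K D s) * 0)) :=
      (tendsto_pow_atTop_nhds_zero_of_lt_one ((ν i).nonneg _) (hb i)).const_mul _
    rw [mul_zero] at h1
    refine h1.congr fun j => ?_
    rw [sub_zero, map_mul, map_pow, map_mul, map_pow]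
  -- the radii
  obtain ⟨ε₁, h01, h11, h1e⟩ : ∃ ε₁ : ℝ, 0 < ε₁ ∧ ε₁ ≤ 1 ∧ ε₁ ≤ ε₀ :=
    ⟨min 1 ε₀, lt_min one_pos hε₀, min_le_left _ _, min_le_right _ _⟩
  obtain ⟨ε₂, h02, hroot⟩ := exists_root_G hu hs (two_ne_zero : (2 : D) ≠ 0) nrd (n := n) (m := m)
    (Nat.cast_ne_zero.mpr (by positivity)) hna hns hnc h01
  obtain ⟨ε, h0, h1, h2⟩ : ∃ ε : ℝ, 0 < ε ∧ ε ≤ ε₁ ∧ ε ≤ ε₂ :=
    ⟨min ε₁ ε₂, lt_min h01 h02, min_le_left _ _, min_le_right _ _⟩
  have hε1 : ε ≤ 1 := h1.trans h11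
  obtain ⟨V, hV⟩ : ∃ V, V = VN hu nrd h0 hε1 := ⟨_, rfl⟩
  have memV : ∀ {g : Dˣ}, g ∈ V ↔ g ∈ GN nrd ∧ ∀ i, ν i ((g : D) - 1) < ε := by
    intro g
    rw [hV, mem_VN]
  have hcpow : ∀ g ∈ GN nrd, (∀ i, ν i ((g : D) - 1) < ε₁) → g ^ m ∈ core M := by
    intro g hg hgn u hu'
    have h3 : u * g ^ m * u⁻¹ = (u * g * u⁻¹) ^ m := by rw [conj_pow]
    rw [h3]
    exact hMpow _ (GN_conj hu' hg) fun i => by
      rw [conj_near]
      exact (hgn i).trans_le h1e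
  have hcab : ∀ g ∈ V, ∀ h ∈ V, ⁅g, h⁆ ∈ core M := by
    intro g hg h hh u hu'
    rw [memV] at hg hh
    have h3 : u * ⁅g, h⁆ * u⁻¹ = ⁅u * g * u⁻¹, u * h * u⁻¹⁆ := by
      simp only [commutatorElement_def]; group
    rw [h3]
    refine hMab _ (GN_conj hu' hg.1) (fun i => ?_) _ (GN_conj hu' hh.1) fun i => ?_
    · rw [conj_near]
      exact (hg.2 i).trans_le (h1.trans h1e)
    · rw [conj_near]
      exact (hh.2 i).trans_le (h1.trans h1e)
  obtain ⟨m', hm'0, hm'⟩ := hexp ε h0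
  refine ⟨ε, h0, fun g hg v hv hvε => ?_⟩
  have key := comm_mem (K := K) (D := D) hlin' (c := fun j => s * b ^ j)
    (fun j => mul_ne_zero hs0 (pow_ne_zero j hb0))
    (fun j => by
      rw [map_mul, map_pow, star_mul, star_pow, hsn, hbs, mul_neg,
        ((Algebra.commutes s (algebraMap K D b ^ j)) : _ = _)])
    hct (n := n) (m := m') (Nat.cast_ne_zero.mpr (by positivity)) two_ne_zero
    (N := core M ⊓ V) (H := V) (G := GN nrd)
    (fun x hx => (memV.mp hx).1) (fun x hx => (mem_GN.mp hx).1) inf_le_right (comm_le_GN nrd)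
    (fun x hx => ?_) (fun u hu' => ?_) (fun u hu' x hx => ?_) ?_ ?_ (fun h hh O hO => ?_)
    (fun x hx O hO => ?_) hg (memV.mpr ⟨hv, hvε⟩)
  · exact core_le M key.1
  · rw [memV]
    exact ⟨(GN nrd).pow_mem hx m', fun i => by
      rw [Units.val_pow_eq_pow_val]
      exact hm' x hx i⟩
  · -- the normalised powers
    obtain ⟨a, ha⟩ : ∃ a, a = nrd (u : D) := ⟨_, rfl⟩
    have h3 : nrd (u : D) * nrd (star (u : D)) = 1 := by
      rw [← map_mul, mem_UD.mp hu', map_one]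
    have ha0 : a ≠ 0 := by
      intro h
      rw [← ha, h, zero_mul] at h3
      exact zero_ne_one h3
    have haD : algebraMap K D a ≠ 0 := (map_ne_zero_iff _ (algebraMap K D).injective).mpr ha0
    have haU : Units.mk0 _ haD ∈ UD D := by
      rw [mem_UD, Units.val_mk0, ha, ← hns, ← map_mul, h3, map_one]
    refine ⟨a⁻¹, inv_ne_zero ha0, (Units.mk0 _ haD)⁻¹ * u ^ n, ?_, ?_⟩
    · rw [mem_GN]
      refine ⟨(UD D).mul_mem ((UD D).inv_mem haU) ((UD D).pow_mem hu' n), ?_⟩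
      have h4 : nrd ((Units.mk0 _ haD : Dˣ) : D) * nrd (((Units.mk0 _ haD)⁻¹ : Dˣ) : D) = 1 := by
        rw [← map_mul, Units.mul_inv, map_one]
      rw [Units.val_mk0, hna] at h4
      rw [Units.val_mul, map_mul, eq_inv_of_mul_eq_one_right h4, Units.val_pow_eq_pow_val,
        map_pow, ← ha, inv_mul_cancel₀ (pow_ne_zero n ha0)]
    · rw [Units.val_mul, Units.val_inv_eq_inv_val, Units.val_mk0, Units.val_pow_eq_pow_val,
        map_inv₀]
  · refine ⟨core_conj hu' hx.1, memV.mpr ⟨GN_conj hu' (memV.mp hx.2).1, fun i => ?_⟩⟩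
    rw [conj_near]
    exact (memV.mp hx.2).2 i
  · rw [Subgroup.commutator_le]
    intro x hx y hy
    refine ⟨hcab x hx y hy, ?_⟩
    rw [commutatorElement_def]
    exact V.mul_mem (V.mul_mem (V.mul_mem hx hy) (V.inv_mem hx)) (V.inv_mem hy)
  · refine ⟨{x | ∀ i, ν i (x - 1) < ε}, (mem_nhds_topo ν).mpr ⟨ε, h0, fun y hy => hy⟩,
      fun x hx hxO => memV.mpr ⟨hx, hxO⟩⟩
  · obtain ⟨δ, hδ, hδO⟩ := (mem_nhds_topo ν).mp hO
    rw [memV] at hh
    obtain ⟨x, hxU, hx1, hxε, hxδ⟩ := hroot h (mem_GN.mp hh.1).1 (mem_GN.mp hh.1).2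
      (fun i => (hh.2 i).trans_le h2) (min δ ε) (lt_min hδ h0)
    have hxG : x ∈ GN nrd := mem_GN.mpr ⟨hxU, hx1⟩
    refine ⟨x ^ m, ⟨hcpow x hxG hxε, memV.mpr ⟨(GN nrd).pow_mem hxG m, fun i => ?_⟩⟩, ?_⟩
    · have h3 : ((x ^ m : Dˣ) : D) - 1 = ((x : D) ^ m - h) + ((h : D) - 1) := by
        rw [Units.val_pow_eq_pow_val, sub_add_sub_cancel]
      rw [h3]
      exact lt_of_le_of_lt (hu i _ _) (max_lt ((hxδ i).trans_le (min_le_right _ _)) (hh.2 i))
    · refine hδO _ fun i => ?_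
      rw [Units.val_pow_eq_pow_val]
      exact (hxδ i).trans_le (min_le_left _ _)
  · obtain ⟨δ, hδ, hδO⟩ := (mem_nhds_topo ν).mp hO
    obtain ⟨w, hw, hwδ⟩ := hdU x hx δ hδ
    exact ⟨w, hw, hδO _ hwδ⟩

end main

end Vale.Agent.P011.H465
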