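import Vale.Agent.P011.Pow.LQb
import Vale.Agent.P011.Pow.LQ
import Vale.Agent.P011.Pow.AvDiv
import Vale.Agent.P011.Pow.MP
import Vale.Agent.P011.H465.Open
import Vale.Agent.P011.H465.NrdCont

/-!
**Number fields: the special unitary group acts trivially on the abelian quotients of its open
normal subgroups, near one.**
-/

open NumberField IsDedekindDomain Module Filter
open scoped TensorProduct commutatorElement

set_option linter.unusedSectionVars false

namespace Vale.Agent.P011.H465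

open Vale.Agent.P011.Arith Vale.Agent.P011.Even Vale.Agent.P011.Pow Vale.Agent.P011.Two
  Vale.Agent.P011.One
open Vale.Agent.P011.W (HasNrd)

section local_

variable {F K D : Type} [NontriviallyNormedField F] [IsUltrametricDist F] [ProperSpace F]
  [Field K] [Algebra K F] [DivisionRing D] [Algebra K D] [FiniteDimensional K D]

/-- The powers of the elements of absolute value one are close to one, uniformly. -/
theorem exists_exp (h : DivF F K D) {ε : ℝ} (hε : 0 < ε) : ∃ m : ℕ, 0 < m ∧ ∀ x : D,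
    cvF F K x = 1 → cvF F K (x ^ m - 1) < ε := by
  let i0 : DivisionRing (F ⊗[K] D) := locDR h
  have i1 : FiniteDimensional F (F ⊗[K] D) := inferInstance
  let _ : NormedDivisionRing (F ⊗[K] D) := LocDiv.ndr F
  let _ : NormedAlgebra F (F ⊗[K] D) :=
    { (inferInstance : Algebra F (F ⊗[K] D)) with
      norm_smul_le := fun c x => by
        change LocDiv.nm F (c • x) ≤ ‖c‖ * LocDiv.nm F x
        rw [Algebra.smul_def, LocDiv.nm_mul, LocDiv.nm_algebraMap] }
  have hU : IsUltrametricDist (F ⊗[K] D) :=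
    IsUltrametricDist.isUltrametricDist_of_forall_norm_add_le_max_norm
      (fun x y => LocDiv.nm_add_le_max F x y)
  have hP : ProperSpace (F ⊗[K] D) := FiniteDimensional.proper F _
  obtain ⟨δ, hδ, hδε, hδ1⟩ : ∃ δ : ℝ, 0 < δ ∧ δ ≤ ε ∧ δ ≤ 1 :=
    ⟨min ε 1, lt_min hε one_pos, min_le_left _ _, min_le_right _ _⟩
  obtain ⟨t, -, htf, ht⟩ := (isCompact_sphere (0 : F ⊗[K] D) 1).finite_cover_balls hδ
  refine ⟨(htf.toFinset.card).factorial, Nat.factorial_pos _, fun x hx => ?_⟩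
  have hnorm : ∀ y : D, cvF F K y = ‖(1 : F) ⊗ₜ[K] y‖ := fun y => cvF_eq h y
  have hpow : ∀ i : ℕ, cvF F K (x ^ i) = 1 := fun i => by
    induction i with
    | zero => rw [pow_zero, cvF_one]
    | succ i ih => rw [pow_succ, cvF_mul, ih, hx, one_mul]
  have hmem : ∀ i : ℕ, ∃ c ∈ htf.toFinset, dist ((1 : F) ⊗ₜ[K] (x ^ i)) c < δ := fun i => by
    have h1 : (1 : F) ⊗ₜ[K] (x ^ i) ∈ Metric.sphere (0 : F ⊗[K] D) 1 := by
      rw [mem_sphere_zero_iff_norm, ← hnorm, hpow]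
    obtain ⟨c, hc, hc'⟩ := Set.mem_iUnion₂.mp (ht h1)
    exact ⟨c, htf.mem_toFinset.mpr hc, Metric.mem_ball.mp hc'⟩
  choose c hc hcd using hmem
  obtain ⟨i, hi, j, hj, hij, hcij⟩ := Finset.exists_ne_map_eq_of_card_lt_of_maps_to
    (s := Finset.range (htf.toFinset.card + 1)) (t := htf.toFinset)
    (by rw [Finset.card_range]; omega) (f := c) (fun i _ => hc i)
  -- two powers are close
  have key : ∀ i j : ℕ, i < j → j ≤ htf.toFinset.card → c i = c j →
      cvF F K (x ^ (htf.toFinset.card).factorial - 1) < ε := by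
    intro i j hij hj hcij
    have h1 : dist ((1 : F) ⊗ₜ[K] (x ^ j)) ((1 : F) ⊗ₜ[K] (x ^ i)) < δ := by
      refine lt_of_le_of_lt (dist_triangle_max _ (c j) _) (max_lt (hcd j) ?_)
      rw [← hcij, dist_comm]
      exact hcd i
    have h2 : cvF F K (x ^ j - x ^ i) < δ := by
      rw [hnorm, TensorProduct.tmul_sub, ← dist_eq_norm]
      exact h1
    have h3 : x ^ j - x ^ i = x ^ i * (x ^ (j - i) - 1) := by
      rw [mul_sub, mul_one, ← pow_add, Nat.add_sub_cancel' hij.le]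
    rw [h3, cvF_mul, hpow, one_mul] at h2
    obtain ⟨l, hl⟩ : (j - i) ∣ (htf.toFinset.card).factorial :=
      Nat.dvd_factorial (by omega) (by omega)
    rw [hl, pow_mul]
    have h4 : (AvF h) ((x ^ (j - i)) ^ l - 1) ≤ (AvF h) (x ^ (j - i) - 1) :=
      nu_pow_sub (ν := AvF h) (cvF_add h) (h2.le.trans hδ1) l
    exact (lt_of_le_of_lt h4 h2).trans_le hδε
  rw [Finset.mem_range] at hi hj
  rcases lt_or_gt_of_ne hij with h1 | h1
  · exact key i j h1 (by omega) hcij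
  · exact key j i h1 (by omega) hcij.symm

end local_

section place

variable {k K D : Type} [Field k] [NumberField k] [Field K] [NumberField K] [StarRing K]
  [DivisionRing D] [StarRing D] [Algebra k K] [Algebra k D] [Algebra K D] [IsScalarTower k K D]
  {d : kˣ} {s : K} {Ω : Type} [Field Ω] [Algebra K Ω] {n : ℕ}

/-- The absolute value of `D` at a place of `Tdiv`. -/
theorem exists_av_place (hS : Setting k K D d s) (hn : 0 < n) (hdeg : finrank K D = n ^ 2)
    {M : ℕ} (B : Basis (Fin M) k D) {p : Pl k} (hp : p ∈ Tdiv k K D) :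
    ∃ A : AbsoluteValue D ℝ, (∀ x y, A (x + y) ≤ max (A x) (A y)) ∧
      (∀ Λ : D →ₗ[K] K, ∃ C : ℝ, ∀ x, A (algebraMap K D (Λ x)) ≤ C * A x) ∧
      (∀ c : k, A (algebraMap K D (algebraMap k K c)) = plAbv p c) ∧
      (∀ (x : D) (ρ : K), HasNrd K n x ρ → ρ = 1 → A x = 1) ∧
      (∀ g : D, g * star g = 1 → A (g - 1) < 1 → A (star (g - 1)) = A (g - 1)) ∧
      (∀ ε : ℝ, 0 < ε → ∃ δ : ℝ, 0 < δ ∧ ∀ g : D, g * star g = 1 → A (g - 1) < δ →
        Even.nm B p (g - 1) < ε) ∧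
      (∀ ε : ℝ, 0 < ε → ∃ δ : ℝ, 0 < δ ∧ ∀ x : D, Even.nm B p x < δ → A x < ε) ∧
      ∀ ε : ℝ, 0 < ε → ∃ m : ℕ, 0 < m ∧ ∀ x : D, A x = 1 → A (x ^ m - 1) < ε := by
  have := hS.fin
  have := hS.cen
  obtain ⟨v, rfl, φ, hdiv⟩ := hp
  let _ : NontriviallyNormedField (v.adicCompletion k) := nnf v
  have : IsUltrametricDist (v.adicCompletion k) := isUltra v
  let _ : Algebra K (v.adicCompletion k) := (φ : K →+* v.adicCompletion k).toAlgebra
  have h : DivF (v.adicCompletion k) K D := hdiv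
  have hφ : ∀ c : k, algebraMap K (v.adicCompletion k) (algebraMap k K c) =
      algebraMap k (v.adicCompletion k) c := fun c => φ.commutes c
  refine ⟨AvF h, cvF_add h, fun Λ => ?_, fun c => ?_, fun x ρ hρ hρ1 => ?_,
    fun g hg hlt => cvF_star_sub hS h hg hlt, fun ε hε => ?_, fun ε hε => ?_,
    fun ε hε => exists_exp h hε⟩
  · obtain ⟨C, -, hC⟩ := cvF_linear (F := v.adicCompletion k) h Λ
    refine ⟨C, fun x => ?_⟩
    have h1 : (AvF h) (algebraMap K D (Λ x)) = ‖algebraMap K (v.adicCompletion k) (Λ x)‖ :=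
      cvF_alg (Λ x)
    rw [h1]
    exact hC x
  · have h1 : (AvF h) (algebraMap K D (algebraMap k K c)) =
        ‖algebraMap K (v.adicCompletion k) (algebraMap k K c)‖ := cvF_alg (algebraMap k K c)
    rw [h1, hφ, norm_algebraMap_eq]
  · obtain ⟨g⟩ := P011S.exists_split (K := K) (D := D) hdeg (AlgebraicClosure K)
    have h2 : (g x).det = algebraMap K (AlgebraicClosure K) 1 := by rw [hρ _ g, hρ1]
    change cvF (v.adicCompletion k) K x = 1
    rw [cvF_det hS hn hdeg g h2, map_one, norm_one, Real.one_rpow]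
  · exact dn_unitary hS h v (fun ε hε => ⟨ε, hε, fun c hc => by
      rwa [hφ, norm_algebraMap_eq v c] at hc⟩) B hε
  · exact cv_small hS h v (fun ε hε => ⟨ε, hε, fun c hc => by
      rwa [hφ, norm_algebraMap_eq v c]⟩) B hε

/-- The reduced norm as a homomorphism. -/
theorem exists_nrdHom (hS : Setting k K D d s) (hdeg : finrank K D = n ^ 2)
    (f : D →ₐ[K] Matrix (Fin n) (Fin n) Ω) : ∃ nrd : D →* K, (∀ x, HasNrd K n x (nrd x)) ∧
      (∀ a : K, nrd (algebraMap K D a) = a ^ n) ∧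
      (∀ x, algebraMap K D (nrd (star x)) = star (algebraMap K D (nrd x))) ∧
      ∀ x, algebraMap K Ω (nrd x) = (f x).det := by
  have := hS.fin
  have := hS.cen
  choose ν hν using fun x : D => Vale.Agent.P011.Pow.exists_nrd (K := K) hdeg x
  refine ⟨{ toFun := ν, map_one' := (hν 1).unique hdeg W.HasNrd.one,
            map_mul' := fun x y => (hν (x * y)).unique hdeg ((hν x).mul (hν y)) }, hν, fun a => ?_,
    fun x => ?_, fun x => (hν x Ω f).symm⟩
  · exact (hν _).unique hdeg (W.HasNrd.algMap a)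
  · rw [hS.star_alg]
    congr 1
    exact (hν (star x)).unique hdeg (W.HasNrd.star (fun c => hS.star_alg c) (hν x))

/-- Density of the commutators of unitary elements in the special unitary group, at the places of
`Tdiv`. -/
def DC (k : Type) {K D Ω : Type} [Field k] [NumberField k] [Field K] [DivisionRing D]
    [StarRing D] [Algebra k K] [Algebra k D] [Algebra K D] [Field Ω] [Algebra K Ω] {n M : ℕ}
    (f : D →ₐ[K] Matrix (Fin n) (Fin n) Ω) (B : Basis (Fin M) k D) : Prop :=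
  ∀ g ∈ SUD f, ∀ ε : ℝ, 0 < ε → ∃ c ∈ ⁅UD D, UD D⁆, ∀ p ∈ Tdiv k K D,
    Even.nm B p (((g * c⁻¹ : Dˣ) : D) - 1) < ε

/-- An element of `k` which is small at finitely many places. -/
theorem exists_small {T : Set (Pl k)} (hT : T.Finite) (hTv : ∀ p ∈ T, ∃ v, p = Sum.inl v) :
    ∃ b : k, b ≠ 0 ∧ ∀ p ∈ T, plAbv p b < 1 := by
  have key : ∀ T : Set (Pl k), T.Finite → (∀ p ∈ T, ∃ v, p = Sum.inl v) →
      ∃ b : 𝓞 k, b ≠ 0 ∧ ∀ v : HeightOneSpectrum (𝓞 k), (Sum.inl v : Pl k) ∈ T →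
        b ∈ v.asIdeal := by
    intro T hT
    induction T, hT using Set.Finite.induction_on with
    | empty => exact fun _ => ⟨1, one_ne_zero, fun v hv => hv.elim⟩
    | @insert p T _ _ ih =>
      intro hTv
      obtain ⟨b, hb0, hb⟩ := ih fun q hq => hTv q (Set.mem_insert_of_mem p hq)
      obtain ⟨v, rfl⟩ := hTv p (Set.mem_insert p T)
      obtain ⟨a, ha, ha0⟩ := Submodule.exists_mem_ne_zero_of_ne_bot v.ne_bot
      refine ⟨a * b, mul_ne_zero ha0 hb0, fun v' hv' => ?_⟩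
      rcases hv' with h | h
      · rw [Sum.inl_injective h]
        exact Ideal.mul_mem_right _ _ ha
      · exact Ideal.mul_mem_left _ _ (hb v' h)
  obtain ⟨b, hb0, hb⟩ := key T hT hTv
  refine ⟨algebraMap (𝓞 k) k b, (map_ne_zero_iff _ (FaithfulSMul.algebraMap_injective _ _)).mpr hb0,
    fun p hp => ?_⟩
  obtain ⟨v, rfl⟩ := hTv p hp
  exact (HeightOneSpectrum.adicAbv_coe_lt_one_iff _ _ b).mpr (hb v hp)

/-- The absolute value composed with the involution. -/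
noncomputable def starAbv (A : AbsoluteValue D ℝ) : AbsoluteValue D ℝ where
  toFun x := A (star x)
  map_mul' x y := by rw [star_mul, map_mul, mul_comm]
  nonneg' x := A.nonneg _
  eq_zero' x := by rw [AbsoluteValue.eq_zero, star_eq_zero]
  add_le' x y := by rw [star_add]; exact A.add_le _ _

theorem starAbv_apply (A : AbsoluteValue D ℝ) (x : D) : starAbv A x = A (star x) := rfl

/-- **The main theorem at the places of `Tdiv`.** -/
theorem comm_near (hS : Setting k K D d s) (hn : 2 ≤ n) (hdeg : finrank K D = n ^ 2)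
    (f : D →ₐ[K] Matrix (Fin n) (Fin n) Ω) {N : ℕ} (B : Basis (Fin N) k D)
    (hT : (Tdiv k K D).Nonempty) (hDC : DC k f B) {M : Subgroup Dˣ} {m : ℕ} (hm : 0 < m)
    {η : Pl k → ℝ} (hη : ∀ p, 0 < η p)
    (hMab : ∀ g ∈ SUD f, (∀ p ∈ Tdiv k K D, Even.nm B p ((g : D) - 1) < η p) → ∀ h ∈ SUD f,
      (∀ p ∈ Tdiv k K D, Even.nm B p ((h : D) - 1) < η p) → ⁅g, h⁆ ∈ M)
    (hMpow : ∀ g ∈ SUD f, (∀ p ∈ Tdiv k K D, Even.nm B p ((g : D) - 1) < η p) → g ^ m ∈ M) :
    ∃ η' : Pl k → ℝ, (∀ p, 0 < η' p) ∧ ∀ g ∈ SUD f, ∀ v ∈ SUD f,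
      (∀ p ∈ Tdiv k K D, Even.nm B p ((v : D) - 1) < η' p) → ⁅g, v⁆ ∈ M := by
  classical
  have := hS.fin
  have := hS.cen
  have hn0 : 0 < n := by omega
  have hcK : CharZero K := charZero_of_injective_algebraMap (algebraMap k K).injective
  have hTf : (Tdiv k K D).Finite := tdiv_finite hn hdeg
  obtain ⟨nrd, hnrd, hna, hns, hnf⟩ := exists_nrdHom hS hdeg f
  have hGN : ∀ g : Dˣ, g ∈ GN nrd ↔ g ∈ SUD f := fun g => by
    rw [mem_GN, mem_SUD, ← hnf, mem_UD]
    refine and_congr_right fun _ => ⟨fun h => by rw [h, map_one], fun h => ?_⟩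
    exact (algebraMap K Ω).injective (by rw [h, map_one])
  -- the absolute values
  have _ : Nonempty (AbsoluteValue D ℝ) := by
    obtain ⟨p, hp⟩ := hT
    exact ⟨(exists_av_place hS hn0 hdeg B hp).choose⟩
  choose! A hu hlin hk h1 hst hnm hnm' hexp using
    fun (p : Pl k) (hp : p ∈ Tdiv k K D) => exists_av_place hS hn0 hdeg B hp
  let ι := {p : Pl k // p ∈ Tdiv k K D} × Bool
  have _ : Finite {p : Pl k // p ∈ Tdiv k K D} := hTf.to_subtype
  have _ : Nonempty {p : Pl k // p ∈ Tdiv k K D} := hT.to_subtype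
  let ν : ι → AbsoluteValue D ℝ := fun i => if i.2 then starAbv (A i.1) else A i.1
  have hνt : ∀ (p : {p : Pl k // p ∈ Tdiv k K D}) (x : D), ν (p, true) x = A p (star x) :=
    fun p x => rfl
  have hνf : ∀ (p : {p : Pl k // p ∈ Tdiv k K D}) (x : D), ν (p, false) x = A p x :=
    fun p x => rfl
  -- unitary elements
  have hun : ∀ (g : Dˣ), g ∈ UD D → ∀ ε : ℝ, ε ≤ 1 → ∀ p : {p : Pl k // p ∈ Tdiv k K D},
      A p ((g : D) - 1) < ε → ∀ b : Bool, ν (p, b) ((g : D) - 1) < ε := by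
    intro g hg ε hε p hlt b
    cases b
    · exact hlt
    · rw [hνt, hst p p.2 g hg (hlt.trans_le hε)]
      exact hlt
  have hUuni : ∀ i : ι, ∀ x y, ν i (x + y) ≤ max (ν i x) (ν i y) := by
    rintro ⟨p, b⟩ x y
    cases b
    · exact hu p p.2 x y
    · rw [hνt, hνt, hνt, star_add]
      exact hu p p.2 _ _
  have hss : ∀ i : ι, ∃ j, ∀ x, ν i (star x) = ν j x := by
    rintro ⟨p, b⟩
    cases b
    · exact ⟨(p, true), fun x => rfl⟩
    · exact ⟨(p, false), fun x => by rw [hνt, hνf, star_star]⟩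
  have hlinν : ∀ (Λ : D →ₗ[K] K) (i : ι), ∃ C : ℝ, ∀ x,
      ν i (algebraMap K D (Λ x)) ≤ C * ν i x := by
    rintro Λ ⟨p, b⟩
    cases b
    · exact hlin p p.2 Λ
    · let Λ' : D →ₗ[K] K :=
        { toFun := fun x => star (Λ (star x))
          map_add' := fun x y => by rw [star_add, map_add, star_add]
          map_smul' := fun c x => by
            rw [hS.star_smul, map_smul, smul_eq_mul, star_mul, star_star, RingHom.id_apply,
              smul_eq_mul, mul_comm] }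
      obtain ⟨C, hC⟩ := hlin p p.2 Λ'
      refine ⟨C, fun x => ?_⟩
      rw [hνt, hνt, hS.star_alg]
      have h2 := hC (star x)
      have h3 : Λ' (star x) = star (Λ x) := by
        change star (Λ (star (star x))) = _
        rw [star_star]
      rwa [h3] at h2
  -- scalars
  obtain ⟨b, hb0, hb⟩ := exists_small hTf (fun p hp => by
    obtain ⟨v, h1, -⟩ := hp
    exact ⟨v, h1⟩)
  have hbs : star (algebraMap k K b) = algebraMap k K b := (hS.fix _).mpr ⟨b, rfl⟩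
  have hbν : ∀ i : ι, ν i (algebraMap K D (algebraMap k K b)) < 1 := by
    rintro ⟨p, b'⟩
    have h2 : A p (algebraMap K D (algebraMap k K b)) < 1 := by
      rw [hk p p.2]
      exact hb p p.2
    cases b'
    · exact h2
    · rw [hνt, hS.star_alg, hbs]
      exact h2
  -- a minimum over the places
  have hmin : ∀ φ : Pl k → ℝ, (∀ p ∈ Tdiv k K D, 0 < φ p) → ∃ ε : ℝ, 0 < ε ∧
      ∀ p ∈ Tdiv k K D, ε ≤ φ p := fun φ hφ => by
    obtain ⟨p, hp, hmin⟩ := Set.exists_min_image (Tdiv k K D) φ hTf hT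
    exact ⟨φ p, hφ p hp, hmin⟩
  -- the radius for `M`
  choose! δ₁ hδ₁0 hδ₁ using fun (p : Pl k) (hp : p ∈ Tdiv k K D) => hnm p hp (η p) (hη p)
  obtain ⟨ε₀, hε₀, hε₀le⟩ := hmin δ₁ hδ₁0
  have hnear : ∀ g : Dˣ, g ∈ UD D → (∀ i : ι, ν i ((g : D) - 1) < ε₀) →
      ∀ p ∈ Tdiv k K D, Even.nm B p ((g : D) - 1) < η p := fun g hg h p hp =>
    hδ₁ p hp g hg ((h (⟨p, hp⟩, false)).trans_le (hε₀le p hp))
  -- from coordinates to absolute values
  have hback : ∀ ε : ℝ, 0 < ε → ∃ δ : Pl k → ℝ, (∀ p, 0 < δ p) ∧ ∀ g : Dˣ, g ∈ UD D →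
      (∀ p ∈ Tdiv k K D, Even.nm B p ((g : D) - 1) < δ p) → ∀ i : ι, ν i ((g : D) - 1) < ε := by
    intro ε hε
    choose! δ hδ0 hδ using fun (p : Pl k) (hp : p ∈ Tdiv k K D) =>
      hnm' p hp (min ε 1) (lt_min hε one_pos)
    refine ⟨fun p => if p ∈ Tdiv k K D then δ p else 1, fun p => ?_, fun g hg h => ?_⟩
    · dsimp only
      split_ifs with h
      · exact hδ0 p h
      · exact one_pos
    · rintro ⟨p, b⟩
      have h2 : Even.nm B (p : Pl k) ((g : D) - 1) < if (p : Pl k) ∈ Tdiv k K D then δ p else 1 :=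
        h p p.2
      rw [if_pos p.2] at h2
      exact (hun g hg (min ε 1) (min_le_right _ _) p (hδ p p.2 _ h2) b).trans_le (min_le_left _ _)
  have hres := open_comm (K := K) (D := D) (ν := ν) hUuni hss hlinν (s := s)
    (b := algebraMap k K b) (One.s_ne_zero hS) (by rw [hS.star_alg, hS.star_s, map_neg])
    ((map_ne_zero_iff _ (algebraMap k K).injective).mpr hb0) (by rw [hS.star_alg, hbs]) hbν nrd
    (n := n) hn0 hna hns (fun ε hε => nrd_near_one hlinν f hnf hε) (fun g hg ε hε => ?_)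
    (fun ε hε => ?_) (M := M) (m := m) hm (ε₀ := ε₀) hε₀ (fun g hg hgn h hh hhn => ?_)
    (fun g hg hgn => ?_)
  · obtain ⟨ε, hε, h2⟩ := hres
    obtain ⟨δ, hδ0, hδ⟩ := hback ε hε
    exact ⟨δ, hδ0, fun g hg v hv hvn => h2 g ((hGN g).mpr hg) v ((hGN v).mpr hv)
      (hδ v (mem_GN.mp ((hGN v).mpr hv)).1 hvn)⟩
  · obtain ⟨δ, hδ0, hδ⟩ := hback ε hε
    obtain ⟨δ', hδ'0, hδ'⟩ := hmin δ fun p _ => hδ0 p
    obtain ⟨c, hc, hcn⟩ := hDC g ((hGN g).mp hg) δ' hδ'0
    have hcU : c ∈ UD D := (mem_GN.mp (comm_le_GN nrd hc)).1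
    refine ⟨c, hc, fun i => ?_⟩
    have h2 : c⁻¹ * g = c⁻¹ * (g * c⁻¹) * c⁻¹⁻¹ := by group
    rw [h2, conj_near]
    exact hδ (g * c⁻¹) ((UD D).mul_mem (mem_GN.mp hg).1 ((UD D).inv_mem hcU))
      (fun p hp => (hcn p hp).trans_le (hδ' p hp)) i
  · choose! e he0 he using fun (p : Pl k) (hp : p ∈ Tdiv k K D) =>
      hexp p hp (min ε 1) (lt_min hε one_pos)
    refine ⟨∏ p ∈ hTf.toFinset, e p, Finset.prod_pos fun p hp => he0 p (hTf.mem_toFinset.mp hp),
      fun g hg i => ?_⟩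
    obtain ⟨p, b⟩ := i
    obtain ⟨l, hl⟩ : e p ∣ ∏ p ∈ hTf.toFinset, e p :=
      Finset.dvd_prod_of_mem e (hTf.mem_toFinset.mpr p.2)
    have hA1 : A p (g : D) = 1 := h1 p p.2 _ _ (hnrd g) (mem_GN.mp hg).2
    have h2 : A p ((g : D) ^ e p - 1) < min ε 1 := he p p.2 _ hA1
    have h3 : A p (((g : D) ^ e p) ^ l - 1) < min ε 1 :=
      lt_of_le_of_lt (nu_pow_sub (hu p p.2) (h2.le.trans (min_le_right _ _)) l) h2
    have h4 := hun (g ^ (∏ p ∈ hTf.toFinset, e p)) ((UD D).pow_mem (mem_GN.mp hg).1 _) (min ε 1)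
      (min_le_right _ _) p (by rwa [Units.val_pow_eq_pow_val, hl, pow_mul]) b
    rw [Units.val_pow_eq_pow_val] at h4
    exact h4.trans_le (min_le_left _ _)
  · exact hMab g ((hGN g).mp hg) (hnear g (mem_GN.mp hg).1 hgn) h ((hGN h).mp hh)
      (hnear h (mem_GN.mp hh).1 hhn)
  · exact hMpow g ((hGN g).mp hg) (hnear g (mem_GN.mp hg).1 hgn)

/-- **The special unitary group acts trivially on the abelian quotients of its open normal
subgroups, near one.** -/
theorem rh_at (hS : Setting k K D d s) (hn : 2 ≤ n) (hdeg : finrank K D = n ^ 2)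
    (f : D →ₐ[K] Matrix (Fin n) (Fin n) Ω) {N : ℕ} (B : Basis (Fin N) k D) (hDC : DC k f B)
    (H Q : Subgroup (SUD f)) (hH : PF B (GU f) (Im H) (Tdiv k K D)) (hab : ⁅H, H⁆ ≤ Q)
    (hpow : ∃ m : ℕ, m ≠ 0 ∧ ∀ h ∈ H, h ^ m ∈ Q) :
    ∃ η : Pl k → ℝ, (∀ p, 0 < η p) ∧ ∀ v : SUD f,
      (∀ p ∈ Tdiv k K D, Even.nm B p (((v : Dˣ) : D) - 1) < η p) → ∀ g : SUD f, ⁅g, v⁆ ∈ Q := by
  obtain ⟨η, hη, hH⟩ := hH
  obtain ⟨m, hm0, hm⟩ := hpow
  have hmem : ∀ g : SUD f, (∀ p ∈ Tdiv k K D, Even.nm B p (((g : Dˣ) : D) - 1) < η p) → g ∈ H :=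
    fun g hg => mem_of_im (hH _ g.2 hg)
  rcases (Tdiv k K D).eq_empty_or_nonempty with hT | hT
  · refine ⟨η, hη, fun v _ g => hab (Subgroup.commutator_mem_commutator (hmem g ?_) (hmem v ?_))⟩
    · rw [hT]
      exact fun p hp => hp.elim
    · rw [hT]
      exact fun p hp => hp.elim
  · obtain ⟨η', hη', h1⟩ := comm_near hS hn hdeg f B hT hDC (M := Q.map (SUD f).subtype) (m := m)
      (Nat.pos_of_ne_zero hm0) hη
      (fun g hg hgn h hh hhn => ⟨⁅⟨g, hg⟩, ⟨h, hh⟩⁆,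
        hab (Subgroup.commutator_mem_commutator (hmem ⟨g, hg⟩ hgn) (hmem ⟨h, hh⟩ hhn)), rfl⟩)
      (fun g hg hgn => ⟨⟨g, hg⟩ ^ m, hm _ (hmem ⟨g, hg⟩ hgn), rfl⟩)
    refine ⟨η', hη', fun v hv g => ?_⟩
    obtain ⟨x, hx, hxe⟩ := h1 g g.2 v v.2 hv
    have h2 : x = ⁅g, v⁆ := Subtype.ext hxe
    rwa [← h2]

end place

end Vale.Agent.P011.H465
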