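import Mathlib.Topology.Algebra.Star
import Mathlib.Topology.Algebra.GroupWithZero
import Mathlib.Topology.Algebra.Polynomial
import Mathlib.GroupTheory.Commutator.Basic
import Mathlib.RingTheory.Adjoin.Basic
import Mathlib.Algebra.Star.Basic
import Mathlib.Tactic

/-!
**Abelian quotients without continuity are central.** `D` is a topological division ring with
involution, `U` its unitary group, `N ≤ H ≤ G` subgroups normal in `U`, with `H` open in `G`, with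
`N` dense in `H`, and `H / N` abelian. Then the commutators of unitary elements act trivially on
`H / N`, as soon as every unitary element is a polynomial in an element of `H`: an element of the
coset `h N` close to `e` commutes with a unitary element close to a given one.
-/

open Topology Polynomial commutatorElement

namespace Vale.Agent.P011.H465

/-- The unitary group as a subgroup of the units. -/
def UD (D : Type*) [DivisionRing D] [StarRing D] : Subgroup Dˣ where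
  carrier := {g | (g : D) * star (g : D) = 1}
  mul_mem' := by
    intro a b ha hb
    change ((a * b : Dˣ) : D) * star ((a * b : Dˣ) : D) = 1
    change (a : D) * star (a : D) = 1 at ha
    change (b : D) * star (b : D) = 1 at hb
    rw [Units.val_mul, star_mul, mul_assoc, ← mul_assoc (b : D), hb, one_mul, ha]
  one_mem' := by
    change ((1 : Dˣ) : D) * star ((1 : Dˣ) : D) = 1
    rw [Units.val_one, star_one, one_mul]
  inv_mem' := by
    intro a ha
    change (a : D) * star (a : D) = 1 at ha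
    change ((a⁻¹ : Dˣ) : D) * star ((a⁻¹ : Dˣ) : D) = 1
    have h1 : star (a : D) = ((a⁻¹ : Dˣ) : D) := by
      rw [← Units.mul_right_inj a, ha, Units.mul_inv]
    rw [← h1, star_star, h1, Units.inv_mul]

section

variable {D : Type*} [DivisionRing D] [StarRing D]

theorem mem_UD {g : Dˣ} : g ∈ UD D ↔ (g : D) * star (g : D) = 1 := Iff.rfl

theorem star_of_mem {g : Dˣ} (h : g ∈ UD D) : star (g : D) = ((g⁻¹ : Dˣ) : D) := by
  rw [← Units.mul_right_inj g, mem_UD.mp h, Units.mul_inv]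

/-- If `y` commutes with the unitary element `x`, so does `star y`. -/
theorem commute_star {x : Dˣ} (hx : x ∈ UD D) {y : D} (h : Commute (x : D) y) :
    Commute (x : D) (star y) := by
  have h1 : Commute (star (x : D)) (star y) := h.star_star
  rw [star_of_mem hx] at h1
  have h2 : Commute ((((x⁻¹ : Dˣ) : D))⁻¹) (star y) := h1.inv_left₀
  rwa [← Units.val_inv_eq_inv_val, inv_inv] at h2

/-- For `y` commuting with `star y`, the quotient is unitary. -/
theorem quot_mem {y : D} (hy : y ≠ 0) (h : Commute y (star y)) :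
    Units.mk0 y hy * (Units.mk0 (star y) (star_ne_zero.mpr hy))⁻¹ ∈ UD D := by
  have hs : star y ≠ 0 := star_ne_zero.mpr hy
  rw [mem_UD, Units.val_mul, Units.val_inv_eq_inv_val, Units.val_mk0, Units.val_mk0, star_mul,
    star_inv₀, star_star]
  have h1 : (star y)⁻¹ * y⁻¹ = y⁻¹ * (star y)⁻¹ := by
    rw [← mul_inv_rev, ← mul_inv_rev, h.eq]
  calc y * (star y)⁻¹ * (y⁻¹ * star y) = y * ((star y)⁻¹ * y⁻¹) * star y := by
        simp only [mul_assoc]
    _ = 1 := by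
        rw [h1, ← mul_assoc, mul_inv_cancel₀ hy, one_mul, inv_mul_cancel₀ hs]

end

section poly

variable {K D : Type*} [Field K] [DivisionRing D] [Algebra K D]

theorem commute_aeval {x y : D} (h : Commute y x) (p : K[X]) : Commute y (aeval x p) := by
  induction p using Polynomial.induction_on with
  | C a => rw [aeval_C]; exact (Algebra.commutes a y).symm
  | add p q hp hq => rw [map_add]; exact hp.add_right hq
  | monomial n a _ =>
    rw [map_mul, map_pow, aeval_X, aeval_C]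
    have h1 : Commute y (algebraMap K D a) := (Algebra.commutes a y).symm
    exact h1.mul_right (h.pow_right _)

theorem aeval_commute_star [StarRing D] {x : Dˣ} (hx : x ∈ UD D) (p : K[X]) :
    Commute (aeval (x : D) p) (star (aeval (x : D) p)) :=
  (commute_aeval (commute_star hx (commute_aeval (Commute.refl (x : D)) p)).symm p).symm

end poly

section main

variable {K D : Type*} [Field K] [DivisionRing D] [StarRing D] [Algebra K D]
  [TopologicalSpace D] [IsTopologicalRing D] [ContinuousInv₀ D] [ContinuousStar D] [T1Space D]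

/-- Elements of `h N` close to `e` have unitary elements in their centralizers which are close to
a given unitary element which is a polynomial in `e`. -/
theorem exists_near {N H : Subgroup Dˣ} (hHU : H ≤ UD D) (hNH : N ≤ H)
    (hdense : ∀ h ∈ H, ∀ O ∈ 𝓝 (h : D), ∃ x ∈ N, (x : D) ∈ O)
    {u : Dˣ} (hu : u ∈ UD D) {e : Dˣ} (he : e ∈ H) (hue : (u : D) ∈ Algebra.adjoin K {(e : D)})
    {h : Dˣ} (hh : h ∈ H) {O : Set D} (hO : O ∈ 𝓝 (u : D)) :
    ∃ x ∈ N, ∃ w ∈ UD D, (w : D) ∈ O ∧ w * (h * x) = (h * x) * w := by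
  by_cases hu1 : (u : D) = -1
  · -- the element `-1`
    have h1 : (1 : Dˣ) ∈ H := H.one_mem
    obtain ⟨x, hx, -⟩ := hdense 1 h1 Set.univ Filter.univ_mem
    refine ⟨x, hx, u, hu, mem_of_mem_nhds hO, ?_⟩
    apply Units.ext
    rw [Units.val_mul, Units.val_mul (h * x), hu1]
    simp
  · obtain ⟨q, hq⟩ := Algebra.adjoin_singleton_eq_range_aeval K (e : D) ▸ hue
    have hq' : aeval (e : D) q = (u : D) := hq
    obtain ⟨p, hp⟩ : ∃ p : K[X], aeval (e : D) p = 1 + (u : D) :=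
      ⟨1 + q, by rw [map_add, map_one, hq']⟩
    have hp0 : aeval (e : D) p ≠ 0 := by
      rw [hp]
      intro h0
      exact hu1 (eq_neg_of_add_eq_zero_right h0)
    have hUe : e ∈ UD D := hHU he
    -- the value at `e`
    have hval : aeval (e : D) p * (star (aeval (e : D) p))⁻¹ = (u : D) := by
      rw [hp, star_add, star_one, star_of_mem hu]
      have h2 : (1 : D) + ((u⁻¹ : Dˣ) : D) = ((u⁻¹ : Dˣ) : D) * (1 + (u : D)) := by
        rw [mul_add, mul_one, Units.inv_mul, add_comm]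
      have h3 : (1 : D) + (u : D) ≠ 0 := by rw [← hp]; exact hp0
      rw [h2, mul_inv_rev, ← mul_assoc, mul_inv_cancel₀ h3, one_mul, Units.val_inv_eq_inv_val,
        inv_inv]
    -- continuity
    have hc1 : Continuous fun x : D => aeval x p := by
      have : (fun x : D => aeval x p) = fun x : D => (p.map (algebraMap K D)).eval x := by
        funext x
        rw [eval_map_algebraMap]
      rw [this]
      exact Polynomial.continuous _
    have hc : ContinuousAt (fun x : D => aeval x p * (star (aeval x p))⁻¹) (e : D) := by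
      refine hc1.continuousAt.mul ?_
      exact (hc1.star.continuousAt).inv₀ (star_ne_zero.mpr hp0)
    have hO' : O ∈ 𝓝 (aeval (e : D) p * (star (aeval (e : D) p))⁻¹) := by rwa [hval]
    have hn1 := hc.preimage_mem_nhds hO'
    have hn2 : {x : D | aeval x p ≠ 0} ∈ 𝓝 (e : D) :=
      hc1.continuousAt.preimage_mem_nhds (isOpen_ne.mem_nhds hp0)
    -- translate by `h`
    have hce : ContinuousAt (fun x : D => (h : D) * x) (((h⁻¹ * e : Dˣ)) : D) :=
      (continuous_const.mul continuous_id).continuousAt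
    have he2 : (h : D) * ((h⁻¹ * e : Dˣ) : D) = (e : D) := by
      rw [Units.val_mul, ← mul_assoc, Units.mul_inv, one_mul]
    have hn3 : (fun x : D => (h : D) * x) ⁻¹'
        ((fun x : D => aeval x p * (star (aeval x p))⁻¹) ⁻¹' O ∩ {x : D | aeval x p ≠ 0}) ∈
        𝓝 ((h⁻¹ * e : Dˣ) : D) := by
      apply hce.preimage_mem_nhds
      rw [he2]
      exact Filter.inter_mem hn1 hn2
    obtain ⟨x, hx, hx2, hx3⟩ := hdense _ (H.mul_mem (H.inv_mem hh) he) _ hn3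
    have hNU : (h * x) ∈ UD D := hHU (H.mul_mem hh (hNH hx))
    have hy0 : aeval ((h * x : Dˣ) : D) p ≠ 0 := by
      rw [Units.val_mul]
      exact hx3
    have hcs := aeval_commute_star hNU p
    have hxy : Commute ((h * x : Dˣ) : D) (aeval ((h * x : Dˣ) : D) p) :=
      commute_aeval (Commute.refl _) p
    refine ⟨x, hx, _, quot_mem hy0 hcs, ?_, ?_⟩
    · rw [Units.val_mul, Units.val_inv_eq_inv_val, Units.val_mk0, Units.val_mk0, Units.val_mul]
      exact hx2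
    · apply Units.ext
      rw [Units.val_mul, Units.val_mul (h * x), Units.val_mul (Units.mk0 _ hy0),
        Units.val_inv_eq_inv_val, Units.val_mk0, Units.val_mk0]
      have h1 : Commute ((h * x : Dˣ) : D) (star (aeval ((h * x : Dˣ) : D) p)) :=
        commute_star hNU hxy
      exact ((hxy.mul_right h1.inv_right₀).symm).eq

/-- **Commutators of unitary elements act trivially on `H / N`.** -/
theorem comm_comm {N H G : Subgroup Dˣ} (hHU : H ≤ UD D) (hNH : N ≤ H)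
    (hcomm : ⁅UD D, UD D⁆ ≤ G)
    (hN : ∀ u ∈ UD D, ∀ x ∈ N, u * x * u⁻¹ ∈ N)
    (hab : ⁅H, H⁆ ≤ N)
    (hopen : ∃ O ∈ 𝓝 (1 : D), ∀ g ∈ G, (g : D) ∈ O → g ∈ H)
    (hdense : ∀ h ∈ H, ∀ O ∈ 𝓝 (h : D), ∃ x ∈ N, (x : D) ∈ O)
    {u₁ u₂ : Dˣ} (hu₁ : u₁ ∈ UD D) (hu₂ : u₂ ∈ UD D)
    (h₁ : ∃ e ∈ H, (u₁ : D) ∈ Algebra.adjoin K {(e : D)})
    (h₂ : ∃ e ∈ H, (u₂ : D) ∈ Algebra.adjoin K {(e : D)})
    {h : Dˣ} (hh : h ∈ H) : ⁅⁅u₁, u₂⁆, h⁆ ∈ N := by
  obtain ⟨O, hO, hOG⟩ := hopen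
  obtain ⟨e₁, he₁, hue₁⟩ := h₁
  obtain ⟨e₂, he₂, hue₂⟩ := h₂
  -- continuity of the commutator
  obtain ⟨φ, hφ⟩ : ∃ φ : D × D → D, φ = fun p => (u₂ : D) * u₁ * (u₂ : D)⁻¹ * (u₁ : D)⁻¹ *
      (p.1 * p.2 * p.1⁻¹ * p.2⁻¹) := ⟨_, rfl⟩
  have hc : ContinuousAt φ ((u₁ : D), (u₂ : D)) := by
    rw [hφ]
    have c1 : ContinuousAt (fun p : D × D => p.1) ((u₁ : D), (u₂ : D)) := continuousAt_fst
    have c2 : ContinuousAt (fun p : D × D => p.2) ((u₁ : D), (u₂ : D)) := continuousAt_snd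
    exact continuousAt_const.mul (((c1.mul c2).mul (c1.inv₀ u₁.ne_zero)).mul
      (c2.inv₀ u₂.ne_zero))
  have hφ1 : φ ((u₁ : D), (u₂ : D)) = 1 := by
    rw [hφ]
    have h1 := u₁.ne_zero
    have h2 := u₂.ne_zero
    change (u₂ : D) * u₁ * (u₂ : D)⁻¹ * (u₁ : D)⁻¹ *
      ((u₁ : D) * u₂ * (u₁ : D)⁻¹ * (u₂ : D)⁻¹) = 1
    rw [← Units.val_inv_eq_inv_val, ← Units.val_inv_eq_inv_val]
    simp only [← Units.val_mul]
    rw [show u₂ * u₁ * u₂⁻¹ * u₁⁻¹ * (u₁ * u₂ * u₁⁻¹ * u₂⁻¹) = 1 by group, Units.val_one]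
  have hpre : φ ⁻¹' O ∈ 𝓝 ((u₁ : D), (u₂ : D)) := hc.preimage_mem_nhds (by rwa [hφ1])
  rw [nhds_prod_eq, Filter.mem_prod_iff] at hpre
  obtain ⟨O₁, hO₁, O₂, hO₂, hO12⟩ := hpre
  obtain ⟨x₁, hx₁, w₁, hw₁, hw₁O, hc₁⟩ := exists_near (K := K) hHU hNH hdense hu₁ he₁ hue₁ hh hO₁
  obtain ⟨x₂, hx₂, w₂, hw₂, hw₂O, hc₂⟩ := exists_near (K := K) hHU hNH hdense hu₂ he₂ hue₂ hh hO₂
  -- the difference of the commutators lies in `H`
  have hg : u₂ * u₁ * u₂⁻¹ * u₁⁻¹ * ⁅w₁, w₂⁆ ∈ H := by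
    apply hOG
    · refine G.mul_mem ?_ (hcomm (Subgroup.commutator_mem_commutator hw₁ hw₂))
      have := hcomm (Subgroup.commutator_mem_commutator hu₂ hu₁)
      rwa [commutatorElement_def] at this
    · have h1 : φ ((w₁ : D), (w₂ : D)) ∈ O := hO12 ⟨hw₁O, hw₂O⟩
      rw [hφ] at h1
      have h2 : ((u₂ * u₁ * u₂⁻¹ * u₁⁻¹ * ⁅w₁, w₂⁆ : Dˣ) : D) = (u₂ : D) * u₁ * (u₂ : D)⁻¹ *
          (u₁ : D)⁻¹ * ((w₁ : D) * (w₂ : D) * (w₁ : D)⁻¹ * (w₂ : D)⁻¹) := by
        rw [commutatorElement_def]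
        simp only [Units.val_mul, Units.val_inv_eq_inv_val]
      rw [h2]
      exact h1
  -- stabilizer of the coset `h N`
  have key : ∀ (x w : Dˣ), x ∈ N → w ∈ UD D → w * (h * x) = (h * x) * w →
      ∃ y ∈ N, w * h * w⁻¹ = h * y := by
    intro x w hx hw hc
    refine ⟨x * (w * x⁻¹ * w⁻¹), N.mul_mem hx (hN w hw _ (N.inv_mem hx)), ?_⟩
    have h1 : w * h = h * x * w * x⁻¹ := by
      rw [← hc]; group
    rw [h1]; group
  have keyinv : ∀ (w : Dˣ), w ∈ UD D → (∃ y ∈ N, w * h * w⁻¹ = h * y) →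
      ∃ y ∈ N, w⁻¹ * h * w = h * y := by
    rintro w hw ⟨y, hy, h1⟩
    refine ⟨w⁻¹ * y⁻¹ * w, ?_, ?_⟩
    · have := hN w⁻¹ ((UD D).inv_mem hw) _ (N.inv_mem hy)
      rwa [inv_inv] at this
    · have h2 : h = w⁻¹ * (h * y) * w := by rw [← h1]; group
      have h3 : w⁻¹ * h * w * (w⁻¹ * y * w) = h := by
        conv_rhs => rw [h2]
        group
      calc w⁻¹ * h * w = w⁻¹ * h * w * (w⁻¹ * y * w) * (w⁻¹ * y * w)⁻¹ := by group
        _ = h * (w⁻¹ * y⁻¹ * w) := by rw [h3]; group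
  have keymul : ∀ a b : Dˣ, a ∈ UD D → (∃ y ∈ N, a * h * a⁻¹ = h * y) →
      (∃ y ∈ N, b * h * b⁻¹ = h * y) → ∃ y ∈ N, (a * b) * h * (a * b)⁻¹ = h * y := by
    rintro a b ha ⟨y, hy, h1⟩ ⟨z, hz, h2⟩
    refine ⟨y * (a * z * a⁻¹), N.mul_mem hy (hN a ha z hz), ?_⟩
    calc (a * b) * h * (a * b)⁻¹ = a * (b * h * b⁻¹) * a⁻¹ := by group
      _ = (a * h * a⁻¹) * (a * z * a⁻¹) := by rw [h2]; group
      _ = _ := by rw [h1, mul_assoc]
  have k1 := key x₁ w₁ hx₁ hw₁ hc₁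
  have k2 := key x₂ w₂ hx₂ hw₂ hc₂
  have k1' := keyinv w₁ hw₁ k1
  have k2' := keyinv w₂ hw₂ k2
  have hi : ∀ w : Dˣ, (∃ y ∈ N, w⁻¹ * h * w = h * y) → ∃ y ∈ N, w⁻¹ * h * (w⁻¹)⁻¹ = h * y := by
    intro w hw
    rwa [inv_inv]
  have kc : ∃ y ∈ N, ⁅w₁, w₂⁆ * h * ⁅w₁, w₂⁆⁻¹ = h * y := by
    rw [commutatorElement_def]
    have m1 := keymul w₁ w₂ hw₁ k1 k2
    have m2 := keymul (w₁ * w₂) w₁⁻¹ ((UD D).mul_mem hw₁ hw₂) m1 (hi w₁ k1')
    exact keymul (w₁ * w₂ * w₁⁻¹) w₂⁻¹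
      ((UD D).mul_mem ((UD D).mul_mem hw₁ hw₂) ((UD D).inv_mem hw₁)) m2 (hi w₂ k2')
  -- the element of `H`
  obtain ⟨g, hgd⟩ : ∃ g : Dˣ, g = u₂ * u₁ * u₂⁻¹ * u₁⁻¹ * ⁅w₁, w₂⁆ := ⟨_, rfl⟩
  rw [← hgd] at hg
  have hgi : ⁅u₁, u₂⁆ = ⁅w₁, w₂⁆ * g⁻¹ := by
    rw [hgd, commutatorElement_def]
    group
  have kg : ∃ y ∈ N, g⁻¹ * h * (g⁻¹)⁻¹ = h * y := by
    refine ⟨h⁻¹ * (g⁻¹ * h * (g⁻¹)⁻¹), ?_, by group⟩
    have h1 := hab (Subgroup.commutator_mem_commutator (H.inv_mem hh) (H.inv_mem hg))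
    have h2 : h⁻¹ * (g⁻¹ * h * (g⁻¹)⁻¹) = ⁅h⁻¹, g⁻¹⁆ := by
      rw [commutatorElement_def, inv_inv]; group
    rwa [h2]
  obtain ⟨y, hy, hy2⟩ := keymul ⁅w₁, w₂⁆ g⁻¹ (by
    rw [commutatorElement_def]
    exact (UD D).mul_mem ((UD D).mul_mem ((UD D).mul_mem hw₁ hw₂) ((UD D).inv_mem hw₁))
      ((UD D).inv_mem hw₂)) kc kg
  rw [← hgi] at hy2
  have hfin : ⁅⁅u₁, u₂⁆, h⁆ = h * y * h⁻¹ := by
    rw [commutatorElement_def ⁅u₁, u₂⁆ h, hy2]
  rw [hfin]
  exact hN h (hHU hh) y hy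

end main

end Vale.Agent.P011.H465
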