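import Vale.Agent.P011.H465.Cent
import Mathlib.RingTheory.PowerBasis
import Mathlib.LinearAlgebra.Dual.Lemmas
import Mathlib.LinearAlgebra.Matrix.NonsingularInverse
import Mathlib.Topology.Instances.Matrix
import Mathlib.Algebra.Ring.GeomSum
import Mathlib.Topology.Algebra.InfiniteSum.Basic

/-!
Every unitary element is a polynomial in an element of a given subgroup which contains the powers
of the special unitary elements.
-/

open Topology Polynomial Filter

namespace Vale.Agent.P011.H465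

section adj

variable {K D : Type*} [Field K] [DivisionRing D] [Algebra K D] [FiniteDimensional K D]
  [TopologicalSpace D] [IsTopologicalRing D] [T1Space D]

/-- Elements of `K[s]` close to `s` generate `K[s]`. -/
theorem exists_nhds_adjoin (hlin : ∀ Λ : D →ₗ[K] K, Continuous fun x => algebraMap K D (Λ x))
    (s : D) : ∃ O ∈ 𝓝 s, ∀ x ∈ O, x ∈ Algebra.adjoin K {s} → s ∈ Algebra.adjoin K {x} := by
  classical
  let _ : TopologicalSpace K := TopologicalSpace.induced (algebraMap K D) inferInstance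
  have : ContinuousAdd K := continuousAdd_induced (algebraMap K D)
  have : ContinuousMul K := continuousMul_induced (algebraMap K D)
  have : ContinuousNeg K := ⟨by
    refine continuous_induced_rng.mpr ?_
    have : (algebraMap K D) ∘ (fun a : K => -a) = fun a => -(algebraMap K D a) := by
      funext a; simp
    rw [this]
    exact continuous_induced_dom.neg⟩
  have : IsTopologicalRing K := {}
  have : T1Space K := t1Space_of_injective_of_continuous (algebraMap K D).injective
    continuous_induced_dom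
  have hlin' : ∀ Λ : D →ₗ[K] K, Continuous Λ := fun Λ => continuous_induced_rng.mpr (hlin Λ)
  have hs : IsIntegral K s := Algebra.IsIntegral.isIntegral s
  obtain ⟨m, hv, hspan⟩ : ∃ m : ℕ, (LinearIndependent K fun i : Fin m => s ^ (i : ℕ)) ∧
      ∀ y : D, (∃ f : K[X], y = aeval s f) →
        y ∈ Submodule.span K (Set.range fun i : Fin m => s ^ (i : ℕ)) :=
    ⟨_, linearIndependent_pow s, fun y hy => hs.mem_span_pow hy⟩
  -- dual functionals
  obtain ⟨Λ, hΛ⟩ : ∃ Λ : Fin m → (D →ₗ[K] K), ∀ i j : Fin m,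
      Λ i (s ^ (j : ℕ)) = if i = j then 1 else 0 := by
    let b := Module.Basis.extend hv.linearIndepOn_id
    have hj : ∀ j : Fin m, (s ^ (j : ℕ)) ∈ hv.linearIndepOn_id.extend (Set.subset_univ _) :=
      fun j => Module.Basis.subset_extend hv.linearIndepOn_id ⟨j, rfl⟩
    refine ⟨fun i => b.coord ⟨_, hj i⟩, fun i j => ?_⟩
    have h1 : s ^ (j : ℕ) = b ⟨_, hj j⟩ :=
      (Module.Basis.extend_apply_self hv.linearIndepOn_id ⟨_, hj j⟩).symm
    rw [h1, Module.Basis.coord_apply, Module.Basis.repr_self, Finsupp.single_apply]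
    by_cases hij : i = j
    · subst hij; simp
    · rw [if_neg hij, if_neg]
      intro h2
      have h3 : s ^ (j : ℕ) = s ^ (i : ℕ) := congrArg Subtype.val h2
      exact hij (hv.injective h3.symm)
  let A : D → Matrix (Fin m) (Fin m) K := fun x => Matrix.of fun i j => Λ i (x ^ (j : ℕ))
  have hAe : ∀ x i j, A x i j = Λ i (x ^ (j : ℕ)) := fun _ _ _ => rfl
  have hA : Continuous fun x => (A x).det := by
    refine Continuous.matrix_det ?_
    refine continuous_matrix fun i j => ?_
    exact (hlin' (Λ i)).comp (continuous_pow _)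
  have hA1 : (A s).det = 1 := by
    have : A s = 1 := by
      ext i j
      rw [hAe, hΛ, Matrix.one_apply]
    rw [this, Matrix.det_one]
  refine ⟨{x | (A x).det ≠ 0}, ?_, ?_⟩
  · refine hA.continuousAt.preimage_mem_nhds (isOpen_ne.mem_nhds ?_)
    rw [hA1]
    exact one_ne_zero
  · intro x hx hxs
    have hind : LinearIndependent K fun j : Fin m => x ^ (j : ℕ) := by
      rw [Fintype.linearIndependent_iff]
      intro a ha
      have h1 : (A x).mulVec a = 0 := by
        funext i
        have h2 := congrArg (Λ i) ha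
        rw [map_sum, map_zero] at h2
        rw [Pi.zero_apply, ← h2, Matrix.mulVec, dotProduct]
        refine Finset.sum_congr rfl fun j _ => ?_
        rw [map_smul, hAe, smul_eq_mul, mul_comm]
      have h3 : IsUnit (A x) := (Matrix.isUnit_iff_isUnit_det _).mpr (isUnit_iff_ne_zero.mpr hx)
      have h4 := Matrix.mulVec_injective_iff_isUnit.mpr h3
      exact fun j => congrFun (h4 (h1.trans (Matrix.mulVec_zero _).symm)) j
    have hle : Submodule.span K (Set.range fun j : Fin m => x ^ (j : ℕ)) ≤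
        Submodule.span K (Set.range fun i : Fin m => s ^ (i : ℕ)) := by
      rw [Submodule.span_le]
      rintro _ ⟨j, rfl⟩
      have h1 : x ^ (j : ℕ) ∈ Algebra.adjoin K {s} := pow_mem hxs _
      rw [Algebra.adjoin_singleton_eq_range_aeval] at h1
      obtain ⟨p, hp⟩ := h1
      exact hspan _ ⟨p, hp.symm⟩
    have heq := Submodule.eq_of_le_of_finrank_eq hle (by
      rw [finrank_span_eq_card hind, finrank_span_eq_card hv])
    have hs1 : s ∈ Submodule.span K (Set.range fun i : Fin m => s ^ (i : ℕ)) :=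
      hspan s ⟨X, (aeval_X s).symm⟩
    rw [← heq] at hs1
    have h5 : Submodule.span K (Set.range fun j : Fin m => x ^ (j : ℕ)) ≤
        Subalgebra.toSubmodule (Algebra.adjoin K {x}) := by
      rw [Submodule.span_le]
      rintro _ ⟨j, rfl⟩
      exact pow_mem (Algebra.subset_adjoin (Set.mem_singleton x)) _
    exact h5 hs1

end adj

section gen

/-- Elements with the same differences with one are polynomials in each other. -/
theorem mem_adjoin_of_mul {K D : Type*} [Field K] [DivisionRing D] [Algebra K D] {x y : D} {a : K}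
    (ha : a ≠ 0) (h : x = algebraMap K D a * y) : y ∈ Algebra.adjoin K {x} := by
  have h1 : y = algebraMap K D a⁻¹ * x := by
    rw [h, ← mul_assoc, ← map_mul, inv_mul_cancel₀ ha, map_one, one_mul]
  rw [h1]
  exact mul_mem (Subalgebra.algebraMap_mem _ _) (Algebra.subset_adjoin (Set.mem_singleton x))

theorem commute_pm {D : Type*} [Ring D] (x : D) : Commute (1 + x) (1 - x) := by
  change (1 + x) * (1 - x) = (1 - x) * (1 + x)
  noncomm_ring

/-- The symmetric element attached to a unitary element. -/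
theorem exists_symm {D : Type*} [DivisionRing D] [StarRing D] {δ : D} (hδ0 : δ ≠ 0)
    (hδc : ∀ y : D, δ * y = y * δ) (hδs : star δ = -δ) (h2 : (2 : D) ≠ 0) {u : D} (hu0 : u ≠ 0)
    (hus : star u = u⁻¹) (hu1 : u ≠ 1) :
    ∃ s : D, star s = s ∧ s + δ ≠ 0 ∧ u = (s + δ)⁻¹ * (s - δ) := by
  have h1u : (1 : D) - u ≠ 0 := fun h => hu1 (sub_eq_zero.mp h).symm
  obtain ⟨s, hs⟩ : ∃ s : D, s = δ * (1 + u) * (1 - u)⁻¹ := ⟨_, rfl⟩
  have hsu : s * (1 - u) = δ * (1 + u) := by
    rw [hs, mul_assoc, inv_mul_cancel₀ h1u, mul_one]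
  have hss : star s = s := by
    have e1 : (1 : D) + u⁻¹ = (1 + u) * u⁻¹ := by
      rw [add_mul, mul_inv_cancel₀ hu0, one_mul, add_comm]
    have e2 : (1 : D) - u⁻¹ = -(u⁻¹ * (1 - u)) := by
      rw [mul_sub, mul_one, inv_mul_cancel₀ hu0]; abel
    have e3 : Commute (1 + u) ((1 - u)⁻¹) := (commute_pm u).inv_right₀
    rw [hs, star_mul, star_mul, star_inv₀, star_sub, star_add, star_one, hus, hδs,
      e1, e2, inv_neg, mul_inv_rev, inv_inv]
    calc -((1 - u)⁻¹ * u) * ((1 + u) * u⁻¹ * -δ)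
        = (1 - u)⁻¹ * (u * (1 + u) * u⁻¹) * δ := by
          simp only [mul_neg, neg_mul, neg_neg, mul_assoc]
      _ = (1 - u)⁻¹ * (1 + u) * δ := by
          have : u * (1 + u) = (1 + u) * u := by
            rw [mul_add, add_mul, mul_one, one_mul]
          rw [this, mul_assoc (1 + u), mul_inv_cancel₀ hu0, mul_one]
      _ = _ := by rw [← e3.eq, ← hδc, mul_assoc]
  have hne : s + δ ≠ 0 := by
    intro h
    have h3 : s = -δ := eq_neg_of_add_eq_zero_left h
    rw [h3] at hsu
    have h4 : δ * (1 + u) + δ * (1 - u) = 0 := by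
      rw [← hsu]; noncomm_ring
    have h5 : δ * 2 = 0 := by
      rw [← h4]
      have : (2 : D) = 1 + 1 := one_add_one_eq_two.symm
      rw [this]; noncomm_ring
    rcases mul_eq_zero.mp h5 with h6 | h6
    · exact hδ0 h6
    · exact h2 h6
  refine ⟨s, hss, hne, ?_⟩
  have h3 : (s + δ) * u = s - δ := by
    have h4 : s - s * u = δ + δ * u := by
      rw [mul_sub, mul_one, mul_add, mul_one] at hsu
      exact hsu
    have h5 : s * u = s - δ - δ * u := by
      rw [sub_sub, ← h4]; abel
    rw [add_mul, h5]; abel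
  rw [← h3, ← mul_assoc, inv_mul_cancel₀ hne, one_mul]

variable {K D : Type*} [Field K] [DivisionRing D] [StarRing D] [Algebra K D]
  [FiniteDimensional K D] [TopologicalSpace D] [IsTopologicalRing D] [ContinuousInv₀ D]
  [T1Space D]

/-- **Every unitary element is a polynomial in an element of `H`.** -/
theorem exists_mem_adjoin (hlin : ∀ Λ : D →ₗ[K] K, Continuous fun x => algebraMap K D (Λ x))
    {c : ℕ → K} (hc0 : ∀ j, c j ≠ 0)
    (hcs : ∀ j, star (algebraMap K D (c j)) = -algebraMap K D (c j))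
    (hct : Tendsto (fun j => algebraMap K D (c j)) atTop (𝓝 0))
    {n m : ℕ} (hM : ((n * m : ℕ) : K) ≠ 0) (h2K : (2 : K) ≠ 0) {G H : Subgroup Dˣ}
    (hm : ∀ g ∈ G, g ^ m ∈ H)
    (hnorm : ∀ u ∈ UD D, ∃ a : K, a ≠ 0 ∧ ∃ g ∈ G, (g : D) = algebraMap K D a * (u : D) ^ n)
    {u : Dˣ} (hu : u ∈ UD D) : ∃ e ∈ H, (u : D) ∈ Algebra.adjoin K {(e : D)} := by
  by_cases hu1 : (u : D) = 1
  · exact ⟨1, H.one_mem, by rw [hu1]; exact one_mem _⟩
  have hKc : ∀ (a : K) (y : D), algebraMap K D a * y = y * algebraMap K D a :=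
    fun a y => Algebra.commutes a y
  have hinj := (algebraMap K D).injective
  have h2 : (2 : D) ≠ 0 := by
    rw [← map_ofNat (algebraMap K D) 2]
    exact (_root_.map_ne_zero _).mpr h2K
  have hint : ∀ y : D, IsIntegral K y := fun y => Algebra.IsIntegral.isIntegral y
  -- the symmetric element
  obtain ⟨s, hss, hsδ, hus⟩ := exists_symm (δ := algebraMap K D (c 0))
    ((_root_.map_ne_zero _).mpr (hc0 0)) (hKc _) (hcs 0) h2 u.ne_zero
    (by rw [star_of_mem hu, Units.val_inv_eq_inv_val]) hu1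
  have hu_s : (u : D) ∈ Algebra.adjoin K {s} := by
    have h3 : s ∈ Algebra.adjoin K {s} := Algebra.subset_adjoin (Set.mem_singleton s)
    have h4 : algebraMap K D (c 0) ∈ Algebra.adjoin K {s} := Subalgebra.algebraMap_mem _ _
    rw [hus]
    exact mul_mem ((hint _).inv_mem (add_mem h3 h4)) (sub_mem h3 h4)
  -- the elements `1 + c s`
  obtain ⟨t, ht⟩ : ∃ t : ℕ → D, ∀ j, t j = algebraMap K D (c j) * s := ⟨_, fun _ => rfl⟩
  have hts : ∀ j, star (t j) = -t j := by
    intro j
    rw [ht, star_mul, hss, hcs, mul_neg, hKc]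
  have hsp : ∀ j, star (1 + t j) = 1 - t j := by
    intro j
    rw [star_add, star_one, hts, ← sub_eq_add_neg]
  have hpne : ∀ j, 1 + t j ≠ 0 := by
    intro j h
    have h3 : t j = -1 := eq_neg_of_add_eq_zero_right h
    have h4 := hts j
    rw [h3, star_neg, star_one, neg_neg] at h4
    apply h2
    have : (1 : D) + 1 = 0 := by
      nth_rw 1 [← h4]; exact neg_add_cancel 1
    rw [← one_add_one_eq_two, this]
  have hmne : ∀ j, 1 - t j ≠ 0 := by
    intro j
    rw [← hsp]
    exact star_ne_zero.mpr (hpne j)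
  have hcomm : ∀ j, Commute (1 + t j) (star (1 + t j)) := by
    intro j
    rw [hsp]
    exact commute_pm _
  -- the unitary elements
  obtain ⟨w, hw⟩ : ∃ w : ℕ → Dˣ, ∀ j, w j ∈ UD D ∧ (w j : D) = (1 + t j) * (1 - t j)⁻¹ := by
    refine ⟨fun j => Units.mk0 (1 + t j) (hpne j) *
      (Units.mk0 (star (1 + t j)) (star_ne_zero.mpr (hpne j)))⁻¹, fun j => ⟨?_, ?_⟩⟩
    · exact quot_mem (hpne j) (hcomm j)
    · rw [Units.val_mul, Units.val_inv_eq_inv_val, Units.val_mk0, Units.val_mk0, hsp]
  have hwU := fun j => (hw j).1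
  have hwv := fun j => (hw j).2
  have hMD : ((n * m : ℕ) : D) ≠ 0 := by
    rw [← map_natCast (algebraMap K D)]
    exact (_root_.map_ne_zero _).mpr hM
  -- the approximating elements
  obtain ⟨s', hs'⟩ : ∃ s' : ℕ → D, ∀ j, s' j =
      algebraMap K D ((2 * ((n * m : ℕ) : K) * c j)⁻¹) * ((w j : D) ^ (n * m) - 1) :=
    ⟨_, fun _ => rfl⟩
  have hw1 : ∀ j, (w j : D) - 1 = 2 * t j * (1 - t j)⁻¹ := by
    intro j
    rw [hwv]
    calc (1 + t j) * (1 - t j)⁻¹ - 1 = (1 + t j) * (1 - t j)⁻¹ - (1 - t j) * (1 - t j)⁻¹ := by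
          rw [mul_inv_cancel₀ (hmne j)]
      _ = 2 * t j * (1 - t j)⁻¹ := by
          rw [← sub_mul]
          congr 1
          rw [two_mul]; abel
  have hs2 : ∀ j, s' j = algebraMap K D (((n * m : ℕ) : K)⁻¹) *
      (∑ i ∈ Finset.range (n * m), (w j : D) ^ i) * (s * (1 - t j)⁻¹) := by
    intro j
    rw [hs', ← geom_sum_mul, hw1, ht]
    have e1 : algebraMap K D ((2 * ((n * m : ℕ) : K) * c j)⁻¹) =
        algebraMap K D (((n * m : ℕ) : K)⁻¹) * algebraMap K D (((2 : K) * c j)⁻¹) := by
      rw [← map_mul]; congr 1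
      field_simp
    have e2 : (2 : D) * (algebraMap K D (c j) * s) = algebraMap K D (2 * c j) * s := by
      rw [map_mul, map_ofNat, mul_assoc]
    have e3 : algebraMap K D (((2 : K) * c j)⁻¹) * algebraMap K D (2 * c j) = 1 := by
      rw [← map_mul, inv_mul_cancel₀ (mul_ne_zero h2K (hc0 j)), map_one]
    rw [e1, e2]
    calc algebraMap K D (((n * m : ℕ) : K)⁻¹) * algebraMap K D (((2 : K) * c j)⁻¹) *
          ((∑ i ∈ Finset.range (n * m), (w j : D) ^ i) *
            (algebraMap K D (2 * c j) * s * (1 - algebraMap K D (c j) * s)⁻¹))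
        = algebraMap K D (((n * m : ℕ) : K)⁻¹) * ((algebraMap K D (((2 : K) * c j)⁻¹) *
          (∑ i ∈ Finset.range (n * m), (w j : D) ^ i)) *
            (algebraMap K D (2 * c j) * (s * (1 - algebraMap K D (c j) * s)⁻¹))) := by
          simp only [mul_assoc]
      _ = algebraMap K D (((n * m : ℕ) : K)⁻¹) *
          ((∑ i ∈ Finset.range (n * m), (w j : D) ^ i) *
          ((algebraMap K D (((2 : K) * c j)⁻¹) * algebraMap K D (2 * c j)) *
            (s * (1 - algebraMap K D (c j) * s)⁻¹))) := by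
          rw [hKc (((2 : K) * c j)⁻¹) (∑ i ∈ Finset.range (n * m), (w j : D) ^ i)]
          simp only [mul_assoc]
      _ = _ := by rw [e3, one_mul]; simp only [mul_assoc]
  -- the limits
  have lt : Tendsto t atTop (𝓝 0) := by
    have h3 : Tendsto (fun j => algebraMap K D (c j) * s) atTop (𝓝 (0 * s)) :=
      hct.mul_const s
    rw [zero_mul] at h3
    exact h3.congr fun j => (ht j).symm
  have lm : Tendsto (fun j => (1 - t j)⁻¹) atTop (𝓝 1) := by
    have h3 : Tendsto (fun j => 1 - t j) atTop (𝓝 (1 - 0)) := lt.const_sub 1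
    rw [sub_zero] at h3
    have h4 := h3.inv₀ one_ne_zero
    rwa [inv_one] at h4
  have lw : Tendsto (fun j => (w j : D)) atTop (𝓝 1) := by
    have h3 : Tendsto (fun j => (1 + t j) * (1 - t j)⁻¹) atTop (𝓝 ((1 + 0) * 1)) :=
      (lt.const_add 1).mul lm
    rw [add_zero, one_mul] at h3
    exact h3.congr fun j => (hwv j).symm
  have ls : Tendsto s' atTop (𝓝 s) := by
    have h3 : Tendsto (fun j => ∑ i ∈ Finset.range (n * m), (w j : D) ^ i) atTop
        (𝓝 (∑ i ∈ Finset.range (n * m), (1 : D) ^ i)) :=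
      tendsto_finsetSum _ fun i _ => lw.pow i
    have h4 := (h3.const_mul (algebraMap K D (((n * m : ℕ) : K)⁻¹))).mul (lm.const_mul s)
    have h5 : algebraMap K D (((n * m : ℕ) : K)⁻¹) *
        (∑ i ∈ Finset.range (n * m), (1 : D) ^ i) * (s * 1) = s := by
      simp only [one_pow, Finset.sum_const, Finset.card_range, nsmul_eq_mul, mul_one]
      rw [← map_natCast (algebraMap K D), ← map_mul, inv_mul_cancel₀ hM, map_one, one_mul]
    rw [h5] at h4
    exact h4.congr fun j => (hs2 j).symm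
  -- conclusion
  obtain ⟨O, hO, hOs⟩ := exists_nhds_adjoin hlin s
  obtain ⟨j, hj⟩ := (ls.eventually hO).exists
  have hmem_s : s ∈ Algebra.adjoin K {s} := Algebra.subset_adjoin (Set.mem_singleton s)
  have ht_s : t j ∈ Algebra.adjoin K {s} := by
    rw [ht]; exact mul_mem (Subalgebra.algebraMap_mem _ _) hmem_s
  have hw_s : (w j : D) ∈ Algebra.adjoin K {s} := by
    rw [hwv]
    exact mul_mem (add_mem (one_mem _) ht_s) ((hint _).inv_mem (sub_mem (one_mem _) ht_s))
  have hs's : s' j ∈ Algebra.adjoin K {s} := by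
    rw [hs']
    exact mul_mem (Subalgebra.algebraMap_mem _ _) (sub_mem (pow_mem hw_s _) (one_mem _))
  have hfin := hOs _ hj hs's
  obtain ⟨a, ha, g, hg, hgw⟩ := hnorm (w j) (hwU j)
  refine ⟨g ^ m, hm g hg, ?_⟩
  have h6 : ((g ^ m : Dˣ) : D) = algebraMap K D (a ^ m) * (w j : D) ^ (n * m) := by
    rw [Units.val_pow_eq_pow_val, hgw, (show Commute (algebraMap K D a) ((w j : D) ^ n) from
      hKc a _).mul_pow, ← map_pow, ← pow_mul]
  have h7 := mem_adjoin_of_mul (pow_ne_zero m ha) h6
  have h8 : s' j ∈ Algebra.adjoin K {((g ^ m : Dˣ) : D)} := by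
    rw [hs']
    exact mul_mem (Subalgebra.algebraMap_mem _ _) (sub_mem h7 (one_mem _))
  have h9 : Algebra.adjoin K {s' j} ≤ Algebra.adjoin K {((g ^ m : Dˣ) : D)} :=
    Algebra.adjoin_le (Set.singleton_subset_iff.mpr h8)
  have h10 : Algebra.adjoin K {s} ≤ Algebra.adjoin K {((g ^ m : Dˣ) : D)} :=
    Algebra.adjoin_le (Set.singleton_subset_iff.mpr (h9 hfin))
  exact h10 hu_s

end gen

end Vale.Agent.P011.H465
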