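import Vale.Agent.P011.H14.Open
import Vale.Agent.P011.H929.FFc

/-!
# Good pairs over function fields

`GoodInt` is an open condition, and two conjugate elements form a good pair at almost all places.
-/

open Module

set_option linter.unusedSectionVars false

namespace Vale.Agent.P011.H465.OpenF

open Vale.Agent.P011.H305 Vale.Agent.P011.H738 Vale.Agent.P011.H271 Vale.Agent.P011.H182
  Vale.Agent.P011.H775 Vale.Agent.P011.H929.FF

section gen

variable {k K D : Type} [Field k] [Field K] [DivisionRing D] [Algebra k K] [Algebra k D]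
  [Algebra K D] [IsScalarTower k K D] {N : ℕ}

/-- **Good pairs are open**, at every place, for `w₁` separable over `K`. -/
theorem goodInt_open' [StarRing D] (h2 : (2 : k) ≠ 0) (C : Cub K D) (B : Basis (Fin N) k D)
    (v : Place k) {w1 x : D} (hdP : H929.dP C w1 ≠ 0) (h : GoodInt B v w1 (x * w1)) :
    ∃ δ : ℝ, 0 < δ ∧ ∀ w, na B v.abv (w - w1) < δ → C.T (x * w) = C.T w →
      C.S (x * w) = C.S w → C.N (x * w) = C.N w → GoodInt B v w (x * w) := by
  obtain ⟨g1, y1, c1, hg, hIg, hIy, hyg, hc1⟩ := h
  exact H14.good_open h2 C B v.nonarch hdP hg hIg hIy hyg hc1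

end gen

variable {k K D : Type} [Field k] [Field K] [StarRing K] [DivisionRing D] [StarRing D]
  [Algebra k K] [Algebra k D] [Algebra K D] [IsScalarTower k K D] {d : kˣ} {s : K} {N : ℕ}

/-- **Good pairs are open**, at every place. -/
theorem goodInt_open (hS : SetF k K D d s) (h3 : (3 : k) ≠ 0) (h9 : finrank K D = 3 ^ 2)
    (C : Cub K D) (B : Basis (Fin N) k D) (v : Place k) {w1 x : D}
    (hw1 : w1 ∉ Set.range (algebraMap K D)) (h : GoodInt B v w1 (x * w1)) :
    ∃ δ : ℝ, 0 < δ ∧ ∀ w, na B v.abv (w - w1) < δ → C.T (x * w) = C.T w →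
      C.S (x * w) = C.S w → C.N (x * w) = C.N w → GoodInt B v w (x * w) := by
  have _ := hS.fin
  have _ := hS.cen
  have hc : ¬ ∀ y : D, y * w1 = w1 * y := by
    intro hx
    apply hw1
    have : w1 ∈ Subalgebra.center K D := Subalgebra.mem_center_iff.mpr hx
    rw [Algebra.IsCentral.center_eq_bot] at this
    exact Algebra.mem_bot.mp this
  have h30 : (3 : K) ≠ 0 := by
    intro h0
    apply h3
    apply (algebraMap k K).injective
    rw [map_ofNat, h0, map_zero]
  exact goodInt_open' hS.two_ne C B v (H929.dP_ne_zero' C h30 h9 hw1 hc) h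

section fin

variable [GFF k]

theorem finite_not_ig (B : Basis (Fin N) k D) (x : D) : {v : Place k | ¬ Ig B v.abv x}.Finite := by
  have h1 : ∀ c : k, {v : Place k | ¬ v.abv c ≤ 1}.Finite := by
    intro c
    by_cases hc : c = 0
    · convert Set.finite_empty
      ext v
      simp [hc]
    · refine (place_finite hc).subset fun v hv => ?_
      simp only [Set.mem_ofPred_eq] at hv ⊢
      intro h
      exact hv h.le
  refine (Set.finite_iUnion fun i => h1 (B.repr x i)).subset fun v hv => ?_
  simp only [Set.mem_ofPred_eq, Ig, not_forall] at hv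
  obtain ⟨i, hi⟩ := hv
  exact Set.mem_iUnion.mpr ⟨i, hi⟩

/-- Two conjugate elements form a good pair at almost all places. -/
theorem finite_not_goodInt (B : Basis (Fin N) k D) {w w' g : D} (hg0 : g ≠ 0)
    (hg : w' * g = g * w) : {v : Place k | ¬ GoodInt B v w w'}.Finite := by
  refine ((finite_not_ig B g).union (finite_not_ig B g⁻¹)).subset fun v hv => ?_
  by_contra hcon
  simp only [Set.mem_union, Set.mem_ofPred_eq, not_or, not_not] at hcon
  exact hv ⟨g, g⁻¹, 1, hg, hcon.1, hcon.2, by rw [inv_mul_cancel₀ hg0, map_one], map_one _⟩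

end fin

end Vale.Agent.P011.H465.OpenF
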