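import Vale.Agent.P011.H929.FFq

/-!
# Quadratic forms over a global function field

The Hasse principle for the representation of an element by a binary form and for the quaternary
forms `⟨1, -a, -r, r e⟩`, with local conditions in the completions.
-/

open Module Polynomial TensorProduct

set_option linter.unusedSectionVars false
set_option linter.style.haveILetI false

namespace Vale.Agent.P011.H465.R6B

open Vale.Agent.P011.H738 Vale.Agent.P011.H271 Vale.Agent.P011.Hey Vale.Agent.P011.H929.FF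

/-- The form `x ^ 2 - d y ^ 2` represents everything if `d` is a nonzero square. -/
theorem rep_of_square {L : Type*} [Field L] (h2 : (2 : L) ≠ 0) {d c : L} (hd : d ≠ 0)
    (h : ∃ α : L, α ^ 2 = d) : ∃ x y : L, x ^ 2 - d * y ^ 2 = c := by
  obtain ⟨α, rfl⟩ := h
  have hα : α ≠ 0 := by
    rintro rfl
    exact hd (by ring)
  refine ⟨(c + 1) / 2, (c - 1) / (2 * α), ?_⟩
  field_simp
  ring

section loc

variable {F : Type} [Field F] {d : F} [hab : Fact (∀ r : F, r ^ 2 ≠ d + 0 * r)]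

theorem norm_tensor {A : Type} [Field A] [Algebra F A] (x y : A) :
    Algebra.norm A (x ⊗ₜ[F] (1 : QE d) + y ⊗ₜ[F] om d) = x ^ 2 - algebraMap F A d * y ^ 2 := by
  classical
  let b0 := QuadraticAlgebra.basis d (0 : F)
  let b := Algebra.TensorProduct.basis A b0
  rw [Algebra.norm_eq_matrix_det b, Matrix.det_fin_two]
  have hb0 : b 0 = (1 : A) ⊗ₜ[F] (1 : QE d) := by
    rw [Algebra.TensorProduct.basis_apply]
    congr 1
    apply b0.repr.injective
    rw [Basis.repr_self]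
    ext i
    fin_cases i <;> simp [b0, QuadraticAlgebra.basis_repr_apply] <;> rfl
  have hb1 : b 1 = (1 : A) ⊗ₜ[F] om d := by
    rw [Algebra.TensorProduct.basis_apply]
    congr 1
    apply b0.repr.injective
    rw [Basis.repr_self]
    ext i
    fin_cases i <;> simp [b0, QuadraticAlgebra.basis_repr_apply, om]
  have h0 : (x ⊗ₜ[F] (1 : QE d) + y ⊗ₜ[F] om d) * b 0 = x • b 0 + y • b 1 := by
    rw [hb0, hb1, add_mul, Algebra.TensorProduct.tmul_mul_tmul,
      Algebra.TensorProduct.tmul_mul_tmul, mul_one, mul_one, mul_one, mul_one,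
      TensorProduct.smul_tmul', TensorProduct.smul_tmul', smul_eq_mul, smul_eq_mul, mul_one,
      mul_one]
  have h1 : (x ⊗ₜ[F] (1 : QE d) + y ⊗ₜ[F] om d) * b 1 =
      (algebraMap F A d * y) • b 0 + x • b 1 := by
    rw [hb0, hb1, add_mul, Algebra.TensorProduct.tmul_mul_tmul,
      Algebra.TensorProduct.tmul_mul_tmul, mul_one, mul_one, one_mul, om_sq,
      TensorProduct.smul_tmul', TensorProduct.smul_tmul', smul_eq_mul, smul_eq_mul, mul_one,
      mul_one, Algebra.algebraMap_eq_smul_one, ← TensorProduct.smul_tmul, ← Algebra.smul_def,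
      add_comm]
  simp only [Algebra.leftMulMatrix_eq_repr_mul, h0, h1, map_add, map_smul, Basis.repr_self,
    Finsupp.add_apply, Finsupp.smul_apply, Finsupp.single_apply, smul_eq_mul]
  norm_num
  ring

theorem tensor_eq {A : Type} [Field A] [Algebra F A] (z : A ⊗[F] QE d) :
    ∃ x y : A, z = x ⊗ₜ[F] (1 : QE d) + y ⊗ₜ[F] om d := by
  induction z using TensorProduct.induction_on with
  | zero => exact ⟨0, 0, by rw [zero_tmul, zero_tmul, add_zero]⟩
  | tmul u w =>
    refine ⟨u * algebraMap F A w.re, u * algebraMap F A w.im, ?_⟩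
    conv_lhs => rw [eq_om w]
    rw [tmul_add, Algebra.algebraMap_eq_smul_one, Algebra.algebraMap_eq_smul_one, smul_mul_assoc,
      one_mul, ← smul_tmul, ← smul_tmul, Algebra.smul_def, Algebra.smul_def, mul_comm,
      mul_comm (algebraMap F A w.im)]
  | add u w hu hw =>
    obtain ⟨x, y, rfl⟩ := hu
    obtain ⟨x', y', rfl⟩ := hw
    exact ⟨x + x', y + y', by rw [add_tmul, add_tmul]; abel⟩

/-- Local norms from the quadratic extension generated by a square root of `d`. -/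
theorem locN_quad_iff {c : F} {P : Place F} : H63.LocN (QE d) c P ↔
    ∃ x y : P.comp, x ^ 2 - algebraMap F P.comp d * y ^ 2 = algebraMap F P.comp c := by
  constructor
  · rintro ⟨z, hz⟩
    obtain ⟨x, y, rfl⟩ := tensor_eq z
    exact ⟨x, y, by rw [← norm_tensor, hz]⟩
  · rintro ⟨x, y, h⟩
    exact ⟨x ⊗ₜ[F] (1 : QE d) + y ⊗ₜ[F] om d, by rw [norm_tensor, h]⟩

end loc

section global

variable {F : Type} [Field F] [GFF F]

/-- **Hasse principle for the representation of an element by a binary quadratic form.** -/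
theorem hasse_quad_loc (h2 : (2 : F) ≠ 0) {d b : F} (hd0 : d ≠ 0)
    (h : ∀ P : Place F, ∃ x y : P.comp,
      x ^ 2 - algebraMap F P.comp d * y ^ 2 = algebraMap F P.comp b) :
    ∃ x y : F, x ^ 2 - d * y ^ 2 = b := by
  by_cases hd : IsSquare d
  · obtain ⟨α, hα⟩ := hd
    exact rep_of_square h2 hd0 ⟨α, by rw [hα, sq]⟩
  haveI : Fact (∀ r : F, r ^ 2 ≠ d + 0 * r) := ⟨fun r hr => hd ⟨r, by
    rw [zero_mul, add_zero, sq] at hr; exact hr.symm⟩⟩
  haveI := sep_quad h2 hd0
  have hE : finrank F (QE d) = 2 := QuadraticAlgebra.finrank_eq_two _ _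
  obtain ⟨e, he⟩ := Hey.hasse_norm Nat.prime_two hE b fun P => locN_quad_iff.mpr (h P)
  exact ⟨e.re, e.im, by rw [← norm_quad, he]⟩

/-- The algebra behind the descent from `F (√(a e))`. -/
theorem descend {a e r p1 p2 q1 q2 : F} (ha : a ≠ 0) (hna : ∀ α : F, α ^ 2 ≠ a) (hr : r ≠ 0)
    (h1 : p1 ^ 2 + a * e * p2 ^ 2 - a * (q1 ^ 2 + a * e * q2 ^ 2) = r)
    (h2 : p1 * p2 = a * q1 * q2) :
    ∃ x y z w : F, x ^ 2 - a * y ^ 2 ≠ 0 ∧ z ^ 2 - e * w ^ 2 ≠ 0 ∧
      r * (x ^ 2 - a * y ^ 2) = z ^ 2 - e * w ^ 2 := by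
  have hani : ∀ x y : F, x ^ 2 - a * y ^ 2 = 0 → x = 0 ∧ y = 0 := by
    intro x y hxy
    by_cases hy : y = 0
    · subst hy
      refine ⟨?_, rfl⟩
      have : x ^ 2 = 0 := by linear_combination hxy
      exact pow_eq_zero_iff two_ne_zero |>.mp this
    · exact absurd (show (x / y) ^ 2 = a by
        rw [div_pow, div_eq_iff (pow_ne_zero 2 hy)]; linear_combination hxy) (hna _)
  by_cases h0 : p2 = 0 ∧ q2 = 0
  · obtain ⟨rfl, rfl⟩ := h0
    have h3 : p1 ^ 2 - a * q1 ^ 2 = r := by linear_combination h1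
    refine ⟨p1 / r, q1 / r, 1, 0, ?_, ?_, ?_⟩
    · have : (p1 / r) ^ 2 - a * (q1 / r) ^ 2 = 1 / r := by
        field_simp
        linear_combination h3
      rw [this]
      exact one_div_ne_zero hr
    · norm_num
    · field_simp
      linear_combination h3
  · have hN : p2 ^ 2 - a * q2 ^ 2 ≠ 0 := fun h3 => h0 (hani _ _ h3)
    have hx : q2 ^ 2 - a * (p2 / a) ^ 2 = -(p2 ^ 2 - a * q2 ^ 2) / a := by
      field_simp
      ring
    have key : r * (q2 ^ 2 - a * (p2 / a) ^ 2) =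
        (q1 * p2 - p1 * q2) ^ 2 - e * (p2 ^ 2 - a * q2 ^ 2) ^ 2 := by
      rw [hx, ← h1]
      field_simp
      linear_combination (-(p1 * p2) + a * q1 * q2) * h2
    have hx0 : q2 ^ 2 - a * (p2 / a) ^ 2 ≠ 0 := by
      rw [hx]
      exact div_ne_zero (neg_ne_zero.mpr hN) ha
    exact ⟨q2, p2 / a, q1 * p2 - p1 * q2, p2 ^ 2 - a * q2 ^ 2, hx0,
      by rw [← key]; exact mul_ne_zero hr hx0, key⟩

/-- In a field where `a e` is a square the two norm groups agree. -/
theorem merge {L : Type*} [Field L] {a e r θ x y z w : L} (ha : a ≠ 0) (hθ : θ ^ 2 = a * e)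
    (hn : x ^ 2 - a * y ^ 2 ≠ 0) (h : r * (x ^ 2 - a * y ^ 2) = z ^ 2 - e * w ^ 2) :
    ∃ X Y : L, X ^ 2 - a * Y ^ 2 = r := by
  have h1 : z ^ 2 - a * (θ * w / a) ^ 2 = z ^ 2 - e * w ^ 2 := by
    have : a * (θ * w / a) ^ 2 = e * w ^ 2 := by
      field_simp
      linear_combination w ^ 2 * hθ
    rw [this]
  obtain ⟨t, ht⟩ : ∃ t, t = θ * w / a := ⟨_, rfl⟩
  rw [← ht] at h1
  refine ⟨(z * x - a * t * y) / (x ^ 2 - a * y ^ 2), (t * x - z * y) / (x ^ 2 - a * y ^ 2), ?_⟩
  have h2 : ((z * x - a * t * y) / (x ^ 2 - a * y ^ 2)) ^ 2 -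
      a * ((t * x - z * y) / (x ^ 2 - a * y ^ 2)) ^ 2 =
      (z ^ 2 - a * t ^ 2) / (x ^ 2 - a * y ^ 2) := by
    rw [div_pow, div_pow, ← mul_div_assoc, ← sub_div, div_eq_div_iff (pow_ne_zero 2 hn) hn]
    ring
  rw [h2, h1, ← h, mul_div_cancel_right₀ _ hn]

/-- **Hasse principle for the quaternary forms** `⟨1, -a, -r, r e⟩`. -/
theorem hasse2 (h2 : (2 : F) ≠ 0) {a e r : F} (ha : a ≠ 0) (he : e ≠ 0) (hr : r ≠ 0)
    (h : ∀ P : Place F, ∃ x y z w : P.comp, x ^ 2 - algebraMap F P.comp a * y ^ 2 ≠ 0 ∧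
      algebraMap F P.comp r * (x ^ 2 - algebraMap F P.comp a * y ^ 2) =
        z ^ 2 - algebraMap F P.comp e * w ^ 2) :
    ∃ x y z w : F, x ^ 2 - a * y ^ 2 ≠ 0 ∧ z ^ 2 - e * w ^ 2 ≠ 0 ∧
      r * (x ^ 2 - a * y ^ 2) = z ^ 2 - e * w ^ 2 := by
  by_cases hsa : ∃ α : F, α ^ 2 = a
  · obtain ⟨x, y, hxy⟩ := rep_of_square h2 ha hsa (c := 1 / r)
    refine ⟨x, y, 1, 0, ?_, ?_, ?_⟩
    · rw [hxy]; exact one_div_ne_zero hr
    · norm_num
    · rw [hxy]; field_simp; ring
  by_cases hse : ∃ α : F, α ^ 2 = e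
  · obtain ⟨z, w, hzw⟩ := rep_of_square h2 he hse (c := r)
    refine ⟨1, 0, z, w, ?_, ?_, ?_⟩
    · norm_num
    · rw [hzw]; exact hr
    · rw [hzw]; ring
  by_cases hs : ∃ θ : F, θ ^ 2 = a * e
  · obtain ⟨θ, hθ⟩ := hs
    obtain ⟨X, Y, hXY⟩ := hasse_quad_loc h2 ha (b := r) fun P => by
      obtain ⟨x, y, z, w, hn, hxy⟩ := h P
      exact merge (θ := algebraMap F P.comp θ)
        (by rw [ne_eq, map_eq_zero]; exact ha) (by rw [← map_pow, hθ, map_mul]) hn hxy
    have hθ0 : θ ≠ 0 := by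
      rintro rfl
      have : a * e = 0 := by rw [← hθ]; ring
      exact mul_ne_zero ha he this
    have h3 : e * (a * Y / θ) ^ 2 = a * Y ^ 2 := by
      field_simp
      linear_combination (-Y ^ 2) * hθ
    refine ⟨1, 0, X, a * Y / θ, by norm_num, ?_, ?_⟩
    · rw [h3, hXY]; exact hr
    · rw [h3, hXY]; ring
  haveI : Fact (∀ r : F, r ^ 2 ≠ a * e + 0 * r) := ⟨fun r hr => hs ⟨r, by
    rw [zero_mul, add_zero] at hr; exact hr⟩⟩
  have hfin : FiniteDimensional F (QE (a * e)) := inferInstance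
  haveI : GFF (QE (a * e)) := H63.gff_of_finite (k := F)
  have h2L : (2 : QE (a * e)) ≠ 0 := by
    rw [← map_ofNat (algebraMap F (QE (a * e))) 2, ne_eq, map_eq_zero]
    exact h2
  have haL : algebraMap F (QE (a * e)) a ≠ 0 := by
    rw [ne_eq, map_eq_zero]
    exact ha
  obtain ⟨X, Y, hXY⟩ := hasse_quad_loc h2L haL (b := algebraMap F (QE (a * e)) r) fun P => by
    obtain ⟨v, s, hs, hvP⟩ := H63.exists_below (k := F) P
    obtain ⟨φ, hφ⟩ := H63.exists_compHom v P hs hvP
    obtain ⟨x, y, z, w, hn, hxy⟩ := h v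
    have h5 := congrArg φ hxy
    have h6 := (map_ne_zero φ).mpr hn
    simp only [map_mul, map_sub, map_pow, hφ] at h5 h6
    refine merge (θ := algebraMap (QE (a * e)) P.comp (om (a * e))) ?_ ?_ h6 h5
    · rw [ne_eq, map_eq_zero]; exact haL
    · rw [← map_pow, sq, om_sq, map_mul, map_mul]
  have hre := congrArg QuadraticAlgebra.re hXY
  have him := congrArg QuadraticAlgebra.im hXY
  simp only [sq, QuadraticAlgebra.re_sub, QuadraticAlgebra.im_sub, QuadraticAlgebra.re_mul,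
    QuadraticAlgebra.im_mul, QuadraticAlgebra.algebraMap_re, QuadraticAlgebra.algebraMap_im]
    at hre him
  refine descend (p1 := X.re) (p2 := X.im) (q1 := Y.re) (q2 := Y.im) ha
    (fun α hα => hsa ⟨α, hα⟩) hr ?_ ?_
  · linear_combination hre
  · have h7 : (2 : F) * (X.re * X.im - a * Y.re * Y.im) = 0 := by linear_combination him
    exact sub_eq_zero.mp ((mul_eq_zero.mp h7).resolve_left h2)

/-- If `e` is a unit at `P` then the elements of even order are norms from `P.comp (√e)`. -/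
theorem loc_even (h2 : (2 : F) ≠ 0) {P : Place F} {e s c : F} (he : P.abv e = 1) (hc : c ≠ 0)
    (hs : P.abv s = P.abv c ^ 2) :
    ∃ z w : P.comp, z ^ 2 - algebraMap F P.comp e * w ^ 2 = algebraMap F P.comp s := by
  have he0 : e ≠ 0 := by
    rintro rfl
    rw [map_zero] at he
    exact zero_ne_one he
  by_cases hd : IsSquare e
  · obtain ⟨α, hα⟩ := hd
    have h2P : (2 : P.comp) ≠ 0 := by
      rw [← map_ofNat (algebraMap F P.comp) 2, ne_eq, map_eq_zero]
      exact h2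
    refine rep_of_square h2P (by rw [ne_eq, map_eq_zero]; exact he0)
      ⟨algebraMap F P.comp α, by rw [hα, ← map_pow, sq]⟩
  haveI : Fact (∀ r : F, r ^ 2 ≠ e + 0 * r) := ⟨fun r hr => hd ⟨r, by
    rw [zero_mul, add_zero, sq] at hr; exact hr.symm⟩⟩
  haveI := sep_quad h2 he0
  have hE : finrank F (QE e) = 2 := QuadraticAlgebra.finrank_eq_two _ _
  haveI : FiniteDimensional F (QE e) := Module.finite_of_finrank_pos (by rw [hE]; norm_num)
  have hf : (X ^ 2 - C e : F[X]).Monic := monic_X_pow_sub_C e two_ne_zero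
  have hdeg : (X ^ 2 - C e : F[X]).natDegree = 2 := natDegree_X_pow_sub_C
  have hθ : aeval (om e) (X ^ 2 - C e : F[X]) = 0 := by
    rw [map_sub, map_pow, aeval_X, aeval_C, sq, om_sq, sub_self]
  obtain ⟨pb, hpb, hmp⟩ := H63.exists_pb Nat.prime_two hE hf hdeg hθ om_ne
  obtain ⟨G, hGm, -, hG⟩ := H63.exists_lift P hf (by
    intro i
    rw [coeff_sub, coeff_X_pow, coeff_C, sub_eq_add_neg]
    refine (P.nonarch _ _).trans (max_le ?_ ?_)
    · split_ifs
      · rw [map_one]
      · rw [map_zero]; exact zero_le_one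
    · rw [P.abv.map_neg]
      split_ifs
      · exact he.le
      · rw [map_zero]; exact zero_le_one)
  refine locN_quad_iff.mp (H63.loc_unram pb hGm (hmp.trans hG)
    (H63.sep_of_discr (by rw [hdeg]; norm_num) ?_ hGm hG) hc ?_)
  · rw [discr_of_degree_eq_two (by rw [degree_X_pow_sub_C (by norm_num)]; rfl)]
    simp only [coeff_sub, coeff_X_pow, coeff_C]
    norm_num
    rw [show (4 : F) = 2 * 2 by norm_num, map_mul, abv_two h2, he]
    norm_num
  · rw [hs, hE]

/-- The local hypothesis of `hasse2` at the places where `a` and `r` are units. -/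
theorem loc_ok_units (h2 : (2 : F) ≠ 0) {P : Place F} {a r : F} (ha : P.abv a = 1)
    (hr : P.abv r = 1) (e : F) : ∃ x y z w : P.comp,
      x ^ 2 - algebraMap F P.comp a * y ^ 2 ≠ 0 ∧
      algebraMap F P.comp r * (x ^ 2 - algebraMap F P.comp a * y ^ 2) =
        z ^ 2 - algebraMap F P.comp e * w ^ 2 := by
  have hr0 : r ≠ 0 := by
    rintro rfl
    rw [map_zero] at hr
    exact zero_ne_one hr
  obtain ⟨x, y, hxy⟩ := loc_even h2 ha one_ne_zero (s := r⁻¹)
    (by rw [map_inv₀, hr, inv_one, map_one, one_pow])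
  have hr0' : algebraMap F P.comp r ≠ 0 := by rw [ne_eq, map_eq_zero]; exact hr0
  refine ⟨x, y, 1, 0, ?_, ?_⟩
  · rw [hxy, map_inv₀]
    exact inv_ne_zero hr0'
  · rw [hxy, map_inv₀, mul_inv_cancel₀ hr0']
    ring

/-- The local hypothesis of `hasse2` at the places where `e` or `a` is a square. -/
theorem loc_ok_square (h2 : (2 : F) ≠ 0) {P : Place F} {a e r : F} (ha : a ≠ 0) (he : e ≠ 0)
    (hr : r ≠ 0) (h : (∃ α : P.comp, α ^ 2 = algebraMap F P.comp a) ∨
      ∃ α : P.comp, α ^ 2 = algebraMap F P.comp e) : ∃ x y z w : P.comp,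
      x ^ 2 - algebraMap F P.comp a * y ^ 2 ≠ 0 ∧
      algebraMap F P.comp r * (x ^ 2 - algebraMap F P.comp a * y ^ 2) =
        z ^ 2 - algebraMap F P.comp e * w ^ 2 := by
  have h2P : (2 : P.comp) ≠ 0 := by
    rw [← map_ofNat (algebraMap F P.comp) 2, ne_eq, map_eq_zero]
    exact h2
  have hr0' : algebraMap F P.comp r ≠ 0 := by rw [ne_eq, map_eq_zero]; exact hr
  rcases h with h | h
  · obtain ⟨x, y, hxy⟩ := rep_of_square h2P (by rw [ne_eq, map_eq_zero]; exact ha) h
      (c := (algebraMap F P.comp r)⁻¹)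
    refine ⟨x, y, 1, 0, by rw [hxy]; exact inv_ne_zero hr0', ?_⟩
    rw [hxy, mul_inv_cancel₀ hr0']
    ring
  · obtain ⟨z, w, hzw⟩ := rep_of_square h2P (by rw [ne_eq, map_eq_zero]; exact he) h
      (c := algebraMap F P.comp r)
    exact ⟨1, 0, z, w, by norm_num, by rw [hzw]; ring⟩

/-- The local hypothesis of `hasse2` at the places where `r` is a norm from `P.comp (√a)`. -/
theorem loc_ok_norm {P : Place F} {a r : F} (hr : r ≠ 0)
    (h : ∃ x y : P.comp, x ^ 2 - algebraMap F P.comp a * y ^ 2 = algebraMap F P.comp r) (e : F) :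
    ∃ x y z w : P.comp, x ^ 2 - algebraMap F P.comp a * y ^ 2 ≠ 0 ∧
      algebraMap F P.comp r * (x ^ 2 - algebraMap F P.comp a * y ^ 2) =
        z ^ 2 - algebraMap F P.comp e * w ^ 2 := by
  obtain ⟨x, y, hxy⟩ := h
  have hr0' : algebraMap F P.comp r ≠ 0 := by rw [ne_eq, map_eq_zero]; exact hr
  exact ⟨x, y, algebraMap F P.comp r, 0, by rw [hxy]; exact hr0', by rw [hxy]; ring⟩

/-- The places where `a` and `r` are not both units. -/
theorem finite_not_units {a r : F} (ha : a ≠ 0) (hr : r ≠ 0) :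
    {P : Place F | ¬ (P.abv a = 1 ∧ P.abv r = 1)}.Finite := by
  refine ((place_finite ha).union (place_finite hr)).subset fun P hP => ?_
  by_contra h
  simp only [Set.mem_union, Set.mem_ofPred_eq, not_or, not_not] at h
  exact hP h

end global

end Vale.Agent.P011.H465.R6B
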