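import Vale.Agent.P011.H465.NF
import Vale.Agent.P011.H738.LocDensNF
import Vale.Agent.P011.H976.PlusOf

/-!
**Number fields: the special unitary group acts trivially on the abelian quotients of its open
normal subgroups, near one**, in the letters of `H976.RHAt`.
-/

open NumberField IsDedekindDomain Module
open scoped commutatorElement

set_option linter.unusedSectionVars false

namespace Vale.Agent.P011.H465

open Vale.Agent.P011.Arith Vale.Agent.P011.Even Vale.Agent.P011.One

variable {k K D : Type} [Field k] [NumberField k] [Field K] [NumberField K] [StarRing K]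
  [DivisionRing D] [StarRing D] [Algebra k K] [Algebra k D] [Algebra K D] [IsScalarTower k K D]
  {d : kˣ} {s : K} {Ω : Type} [Field Ω] [Algebra K Ω] {n : ℕ}

/-- The commutators of unitary elements are dense in the special unitary group. -/
theorem dc (hS : Setting k K D d s) (hn : 2 ≤ n) (hdeg : finrank K D = n ^ 2)
    (f : D →ₐ[K] Matrix (Fin n) (Fin n) Ω) {M : ℕ} (B : Basis (Fin M) k D) : DC k f B := by
  intro g hg ε hε
  have := hS.fin
  have := hS.cen
  have : StarModule K D := ⟨fun c x => hS.star_smul c x⟩
  obtain ⟨c, hc, h⟩ := H738.nf_exists_commutator_near hS.fix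
    ⟨s, by rw [hS.star_s]; exact fun h => One.s_ne_zero hS (neg_eq_self.mp h)⟩ (by omega) hdeg f
    (Vale.Agent.P011.Pow.tdiv_finite hn hdeg) le_rfl B (x := ⟨g, hg.1⟩) hg.2 (η := fun _ => ε)
    (fun _ => hε)
  refine ⟨(c : Dˣ), ?_, fun p hp => h p hp⟩
  have h1 : (c : Dˣ) ∈ (commutator (H976.UD D)).map (H976.UD D).subtype := ⟨c, hc, rfl⟩
  rw [commutator_def, Subgroup.map_commutator, ← MonoidHom.range_eq_map,
    Subgroup.range_subtype] at h1
  exact h1

/-- **The special unitary group acts trivially on the abelian quotients of its open normal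
subgroups, near one.** -/
theorem rhAt (hS : Setting k K D d s) (hn : 2 ≤ n) (hdeg : finrank K D = n ^ 2)
    (f : D →ₐ[K] Matrix (Fin n) (Fin n) Ω) {M : ℕ} (B : Basis (Fin M) k D) : H976.RHAt k f B :=
  fun H Q _ _ _ hH hab hpow => rh_at hS hn hdeg f B (dc hS hn hdeg f B) H Q hH hab hpow

end Vale.Agent.P011.H465
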