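import Vale.Agent.P011.H465.Cent

/-!
**Approximate roots of unitary elements.** `D` is a division ring with involution and finitely many
nonarchimedean absolute values, permuted by the involution. A unitary element close to one is close
to an `m`-th power of a unitary element close to one, and the root can be chosen of reduced norm one
when the element is.
-/

open Topology Polynomial commutatorElement

namespace Vale.Agent.P011.H465

section one

variable {D : Type*} [DivisionRing D] {ν : AbsoluteValue D ℝ}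

theorem nu_one : ν 1 = 1 := map_one ν

theorem nu_sub (hu : ∀ x y, ν (x + y) ≤ max (ν x) (ν y)) (x y : D) :
    ν (x - y) ≤ max (ν x) (ν y) := by
  rw [sub_eq_add_neg, ← AbsoluteValue.map_neg ν y]
  exact hu _ _

theorem nu_swap (x y : D) : ν (x - y) = ν (y - x) := by
  rw [← AbsoluteValue.map_neg ν (x - y), neg_sub]

theorem nu_nat (hu : ∀ x y, ν (x + y) ≤ max (ν x) (ν y)) (m : ℕ) : ν (m : D) ≤ 1 := by
  induction m with
  | zero => rw [Nat.cast_zero, map_zero]; exact zero_le_one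
  | succ m ih =>
    rw [Nat.cast_succ]
    exact (hu _ _).trans (max_le ih nu_one.le)

theorem nu_eq (hu : ∀ x y, ν (x + y) ≤ max (ν x) (ν y)) {x y : D} (h : ν (x - y) < ν y) :
    ν x = ν y := by
  refine le_antisymm ?_ ?_
  · have h1 : x = (x - y) + y := by rw [sub_add_cancel]
    rw [h1]
    exact (hu _ _).trans (max_le h.le le_rfl)
  · by_contra hlt
    push Not at hlt
    have h1 : y = x - (x - y) := by rw [sub_sub_cancel]
    have h2 : ν y ≤ max (ν x) (ν (x - y)) := by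
      conv_lhs => rw [h1]
      exact nu_sub hu _ _
    exact absurd h2 (not_le.mpr (max_lt hlt h))

theorem nu_inv (x : D) : ν x⁻¹ = (ν x)⁻¹ := map_inv₀ ν x

/-- The powers of an element close to one. -/
theorem nu_pow_sub (hu : ∀ x y, ν (x + y) ≤ max (ν x) (ν y)) {x : D} (hx : ν (x - 1) ≤ 1) (m : ℕ) :
    ν (x ^ m - 1) ≤ ν (x - 1) := by
  have h1 : ν x ≤ 1 := by
    have h2 : x = (x - 1) + 1 := by rw [sub_add_cancel]
    rw [h2]
    exact (hu _ _).trans (max_le hx nu_one.le)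
  induction m with
  | zero => rw [pow_zero, sub_self, map_zero]; exact ν.nonneg _
  | succ m ih =>
    have h3 : x ^ (m + 1) - 1 = (x ^ m - 1) * x + (x - 1) := by
      rw [pow_succ, sub_mul, one_mul, sub_add_sub_cancel]
    rw [h3]
    refine (hu _ _).trans (max_le ?_ le_rfl)
    rw [map_mul]
    exact (mul_le_mul ih h1 (ν.nonneg _) (ν.nonneg _)).trans (mul_one _).le

/-- The binomial expansion to the first order. -/
theorem nu_binom (hu : ∀ x y, ν (x + y) ≤ max (ν x) (ν y)) {z : D} (hz : ν z ≤ 1) (q : ℕ) :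
    ν ((1 + z) ^ q - 1 - q * z) ≤ ν z ^ 2 := by
  induction q with
  | zero => rw [pow_zero, sub_self, Nat.cast_zero, zero_mul, sub_self, map_zero]; positivity
  | succ q ih =>
    have e : (1 + z) ^ (q + 1) - 1 - ((q + 1 : ℕ) : D) * z =
        ((1 + z) ^ q - 1 - q * z) + (((1 + z) ^ q - 1 - q * z) * z + q * z ^ 2) := by
      rw [pow_succ, Nat.cast_succ]
      noncomm_ring
    have h0 := nu_nat hu q
    rw [e]
    refine (hu _ _).trans (max_le ih ((hu _ _).trans (max_le ?_ ?_)))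
    · rw [map_mul]
      exact (mul_le_mul ih hz (ν.nonneg _) (by positivity)).trans (mul_one _).le
    · rw [map_mul, map_pow]
      exact (mul_le_mul_of_nonneg_right h0 (by positivity)).trans (one_mul _).le

/-- One Newton step. -/
theorem newton (hu : ∀ x y, ν (x + y) ≤ max (ν x) (ν y)) {q : ℕ} (hq : (q : D) ≠ 0) {y g z : D}
    (hyg : Commute y g) {t : ℝ} (ht0 : 0 ≤ t) (ht1 : t < 1)
    (hd : ν (g * (y ^ q)⁻¹ - 1) ≤ ν q ^ 2 * t)
    (hz : z = (g * (y ^ q)⁻¹ - 1) * (q : D)⁻¹) :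
    ν z ≤ ν q * t ∧ 1 + z ≠ 0 ∧ ν (g * ((y * (1 + z)) ^ q)⁻¹ - 1) ≤ ν q ^ 2 * t ^ 2 := by
  have hq0 : 0 < ν (q : D) := ν.pos hq
  have hq1 := nu_nat hu q
  have h1 : ν z ≤ ν q * t := by
    rw [hz, map_mul, nu_inv, ← div_eq_mul_inv, div_le_iff₀ hq0]
    refine hd.trans (le_of_eq ?_)
    ring
  have h2 : ν z < 1 := lt_of_le_of_lt h1 (by nlinarith)
  have h3 : ν (1 + z) = 1 := by
    rw [← nu_one (ν := ν)]
    exact nu_eq hu (by rw [add_sub_cancel_left, nu_one]; exact h2)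
  have h4 : 1 + z ≠ 0 := by
    intro h
    rw [h, map_zero] at h3
    exact zero_ne_one h3
  refine ⟨h1, h4, ?_⟩
  obtain ⟨d, hd'⟩ : ∃ d, d = g * (y ^ q)⁻¹ - 1 := ⟨_, rfl⟩
  have hdz : (q : D) * z = d := by
    rw [hz, ← hd', (Nat.cast_commute q (d * (q : D)⁻¹)).eq, mul_assoc,
      inv_mul_cancel₀ hq, mul_one]
  have hcz : Commute y z := by
    rw [hz]
    exact ((hyg.mul_right ((Commute.refl y).pow_right q).inv_right₀).sub_right
      (Commute.one_right y)).mul_right (Nat.cast_commute q y).symm.inv_right₀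
  have hc1 : Commute y (1 + z) := (Commute.one_right y).add_right hcz
  obtain ⟨r, hr⟩ : ∃ r, r = (1 + z) ^ q - 1 - q * z := ⟨_, rfl⟩
  have hr1 : ν r ≤ ν z ^ 2 := by rw [hr]; exact nu_binom hu h2.le q
  have h5 : (1 + z) ^ q = 1 + d + r := by
    rw [hr, hdz]
    abel
  have h6 : (y * (1 + z)) ^ q = (1 + z) ^ q * y ^ q := by
    rw [hc1.mul_pow, (hc1.pow_pow q q).eq]
  have h7 : g * ((y * (1 + z)) ^ q)⁻¹ = (1 + d) * (1 + d + r)⁻¹ := by
    rw [h6, mul_inv_rev, ← mul_assoc, h5, hd', add_sub_cancel]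
  have hd1 : ν d < 1 := by
    rw [hd']
    refine lt_of_le_of_lt hd ?_
    have : ν (q : D) ^ 2 ≤ 1 := pow_le_one₀ (ν.nonneg _) hq1
    nlinarith
  have h8 : ν (1 + d + r) = 1 := by
    rw [← nu_one (ν := ν)]
    refine nu_eq hu ?_
    rw [add_assoc, add_sub_cancel_left, nu_one]
    refine lt_of_le_of_lt (hu _ _) (max_lt hd1 (lt_of_le_of_lt hr1 ?_))
    exact pow_lt_one₀ (ν.nonneg _) h2 two_ne_zero
  have h9 : 1 + d + r ≠ 0 := by
    intro h
    rw [h, map_zero] at h8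
    exact zero_ne_one h8
  have h10 : g * ((y * (1 + z)) ^ q)⁻¹ - 1 = -(r * (1 + d + r)⁻¹) := by
    rw [h7, sub_eq_iff_eq_add]
    have h11 : (1 + d) * (1 + d + r)⁻¹ = (-r + (1 + d + r)) * (1 + d + r)⁻¹ := by
      congr 1
      abel
    rw [h11, add_mul, mul_inv_cancel₀ h9, neg_mul]
  rw [h10, AbsoluteValue.map_neg, map_mul, nu_inv, h8, inv_one, mul_one]
  refine hr1.trans ?_
  calc ν z ^ 2 ≤ (ν q * t) ^ 2 := pow_le_pow_left₀ (ν.nonneg _) h1 2
    _ = ν q ^ 2 * t ^ 2 := by ring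

end one

section many

variable {D : Type*} [DivisionRing D] {ι : Type*} {ν : ι → AbsoluteValue D ℝ}

/-- Approximate roots in the double centraliser. -/
theorem exists_root [Nonempty ι] (hu : ∀ i x y, ν i (x + y) ≤ max (ν i x) (ν i y)) {q : ℕ}
    (hq : (q : D) ≠ 0) {g : D} {θ : ℝ} (hθ0 : 0 ≤ θ) (hθ1 : θ < 1)
    (hg : ∀ i, ν i (g - 1) ≤ ν i q ^ 2 * θ) (k : ℕ) :
    ∃ y : D, y ≠ 0 ∧ (∀ x, Commute x g → Commute x y) ∧
      ∀ i, ν i (y - 1) ≤ ν i q * θ ∧ ν i (g * (y ^ q)⁻¹ - 1) ≤ ν i q ^ 2 * θ ^ (k + 1) := by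
  induction k with
  | zero =>
    refine ⟨1, one_ne_zero, fun x _ => Commute.one_right x, fun i => ⟨?_, ?_⟩⟩
    · rw [sub_self, map_zero]
      exact mul_nonneg ((ν i).nonneg _) hθ0
    · rw [one_pow, inv_one, mul_one, zero_add, pow_one]
      exact hg i
  | succ k ih =>
    obtain ⟨y, hy0, hyc, hy⟩ := ih
    have hyg : Commute y g := (hyc g (Commute.refl g)).symm
    obtain ⟨z, hz⟩ : ∃ z, z = (g * (y ^ q)⁻¹ - 1) * (q : D)⁻¹ := ⟨_, rfl⟩
    have hθk0 : 0 ≤ θ ^ (k + 1) := pow_nonneg hθ0 _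
    have hθk : θ ^ (k + 1) ≤ θ := by
      calc θ ^ (k + 1) = θ ^ k * θ := pow_succ _ _
        _ ≤ 1 * θ := mul_le_mul_of_nonneg_right (pow_le_one₀ hθ0 hθ1.le) hθ0
        _ = θ := one_mul θ
    have key := fun i => newton (hu i) hq hyg hθk0 (hθk.trans_lt hθ1) (hy i).2 hz
    have hz0 : 1 + z ≠ 0 := (key (Classical.arbitrary ι)).2.1
    refine ⟨y * (1 + z), mul_ne_zero hy0 hz0, fun x hx => ?_, fun i => ⟨?_, ?_⟩⟩
    · have h1 := hyc x hx
      refine h1.mul_right ((Commute.one_right x).add_right ?_)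
      rw [hz]
      exact ((hx.mul_right (h1.pow_right q).inv_right₀).sub_right
        (Commute.one_right x)).mul_right (Nat.cast_commute q x).symm.inv_right₀
    · have h1 : y * (1 + z) - 1 = (y - 1) + y * z := by
        rw [mul_add, mul_one]
        abel
      have h2 : ν i (y - 1) < 1 := lt_of_le_of_lt (hy i).1 (by
        have := nu_nat (hu i) q
        have h0 := (ν i).nonneg (q : D)
        nlinarith)
      have h3 : ν i y = 1 := by
        rw [← nu_one (ν := ν i)]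
        exact nu_eq (hu i) (by rw [nu_one]; exact h2)
      rw [h1]
      refine (hu i _ _).trans (max_le (hy i).1 ?_)
      rw [map_mul, h3, one_mul]
      exact (key i).1.trans (mul_le_mul_of_nonneg_left hθk ((ν i).nonneg _))
    · refine (key i).2.2.trans (mul_le_mul_of_nonneg_left ?_ (by positivity))
      calc (θ ^ (k + 1)) ^ 2 = θ ^ (k + 1) * θ ^ (k + 1) := sq _
        _ ≤ θ ^ (k + 1) * θ := mul_le_mul_of_nonneg_left hθk hθk0
        _ = θ ^ (k + 1 + 1) := (pow_succ _ _).symm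

variable [StarRing D]

/-- Approximate roots of unitary elements. -/
theorem exists_root_U [Finite ι] [Nonempty ι] (hu : ∀ i x y, ν i (x + y) ≤ max (ν i x) (ν i y))
    (hs : ∀ i, ∃ j, ∀ x, ν i (star x) = ν j x) {N : ℕ} (hN : (N : D) ≠ 0) (h2 : (2 : D) ≠ 0)
    {θ : ℝ} (hθ0 : 0 ≤ θ) (hθ1 : θ < 1) {g : Dˣ} (hgU : g ∈ UD D)
    (hg : ∀ i, ν i ((g : D) - 1) ≤ ν i ((2 * N : ℕ) : D) ^ 2 * θ) {δ : ℝ} (hδ : 0 < δ) :
    ∃ w ∈ UD D, (∀ i, ν i ((w : D) - 1) ≤ θ) ∧ ∀ i, ν i ((w : D) ^ N - g) < δ := by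
  classical
  have hq : ((2 * N : ℕ) : D) ≠ 0 := by
    rw [Nat.cast_mul]
    exact mul_ne_zero (by rwa [Nat.cast_ofNat]) hN
  obtain ⟨q, hqe⟩ : ∃ q, q = 2 * N := ⟨_, rfl⟩
  rw [← hqe] at hq hg
  -- the precision
  obtain ⟨k, hk⟩ : ∃ k : ℕ, ∀ i, θ ^ (k + 1) < δ * ν i 2 := by
    have h1 : ∀ i, ∃ k : ℕ, ∀ l, k ≤ l → θ ^ (l + 1) < δ * ν i 2 := fun i => by
      have h3 : 0 < δ * ν i 2 := mul_pos hδ ((ν i).pos h2)
      obtain ⟨k, hk⟩ := exists_pow_lt_of_lt_one h3 hθ1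
      refine ⟨k, fun l hl => lt_of_le_of_lt ?_ hk⟩
      exact pow_le_pow_of_le_one hθ0 hθ1.le (by omega)
    choose k hk using h1
    have _ := Fintype.ofFinite ι
    exact ⟨Finset.univ.sup k, fun i => hk i _ (Finset.le_sup (Finset.mem_univ i))⟩
  obtain ⟨y, hy0, hyc, hy⟩ := exists_root hu hq hθ0 hθ1 hg k
  have hyg : Commute (g : D) y := hyc g (Commute.refl _)
  have hgs : Commute (g : D) (star y) := commute_star hgU hyg
  have hys : Commute y (star y) := (hyc (star y) hgs.symm).symm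
  have hs0 : star y ≠ 0 := star_ne_zero.mpr hy0
  obtain ⟨w, hw⟩ : ∃ w, w = Units.mk0 y hy0 * (Units.mk0 (star y) hs0)⁻¹ := ⟨_, rfl⟩
  have hwU : w ∈ UD D := hw ▸ quot_mem hy0 hys
  have hwv : (w : D) = y * (star y)⁻¹ := by
    rw [hw, Units.val_mul, Units.val_inv_eq_inv_val, Units.val_mk0, Units.val_mk0]
  -- the absolute values
  have hq1 : ∀ i, ν i (q : D) ≤ 1 := fun i => nu_nat (hu i) q
  have hq0 : ∀ i, 0 ≤ ν i (q : D) := fun i => (ν i).nonneg _
  have hnat : ∀ i j, (∀ x, ν i (star x) = ν j x) → ν j (q : D) = ν i (q : D) := fun i j h => by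
    rw [← h, star_natCast]
  have hy1 : ∀ i, ν i y = 1 := fun i => by
    rw [← nu_one (ν := ν i)]
    refine nu_eq (hu i) ?_
    rw [nu_one]
    refine lt_of_le_of_lt (hy i).1 ?_
    have := hq1 i
    have := hq0 i
    nlinarith
  have hsy : ∀ i, ν i (star y - 1) ≤ ν i q * θ := fun i => by
    obtain ⟨j, hj⟩ := hs i
    have h1 : star y - 1 = star (y - 1) := by rw [star_sub, star_one]
    rw [h1, hj, ← hnat i j hj]
    exact (hy j).1
  have hsy1 : ∀ i, ν i (star y) = 1 := fun i => by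
    obtain ⟨j, hj⟩ := hs i
    rw [hj, hy1 j]
  have hw1 : ∀ i, ν i ((w : D) - 1) ≤ ν i q * θ := fun i => by
    have h1 : (w : D) - 1 = ((y - 1) - (star y - 1)) * (star y)⁻¹ := by
      rw [hwv, sub_sub_sub_cancel_right, sub_mul, mul_inv_cancel₀ hs0]
    rw [h1, map_mul, nu_inv, hsy1 i, inv_one, mul_one]
    exact (nu_sub (hu i) _ _).trans (max_le (hy i).1 (hsy i))
  have hwn : ∀ i, ν i (w : D) = 1 := fun i => by
    rw [hwv, map_mul, nu_inv, hy1, hsy1, inv_one, mul_one]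
  have hqθ : ∀ i, ν i (q : D) * θ ≤ θ := fun i => by
    have := hq1 i
    nlinarith
  refine ⟨w, hwU, fun i => (hw1 i).trans (hqθ i), fun i => ?_⟩
  -- the main estimate
  obtain ⟨e, he⟩ : ∃ e, e = (g : D) * (y ^ q)⁻¹ := ⟨_, rfl⟩
  have hee : ∀ i, ν i (e - 1) ≤ θ ^ (k + 1) := fun i => by
    rw [he]
    refine (hy i).2.trans ?_
    have h3 : ν i (q : D) ^ 2 ≤ 1 := pow_le_one₀ (hq0 i) (hq1 i)
    have h4 : 0 ≤ θ ^ (k + 1) := pow_nonneg hθ0 _
    nlinarith
  have hθk : θ ^ (k + 1) < 1 := pow_lt_one₀ hθ0 hθ1 (Nat.succ_ne_zero k)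
  have he1 : ∀ i, ν i e = 1 := fun i => by
    rw [← nu_one (ν := ν i)]
    refine nu_eq (hu i) ?_
    rw [nu_one]
    exact (hee i).trans_lt hθk
  obtain ⟨j, hj⟩ := hs i
  have hse : ν i (star e - 1) ≤ θ ^ (k + 1) := by
    have h1 : star e - 1 = star (e - 1) := by rw [star_sub, star_one]
    rw [h1, hj]
    exact hee j
  have hse1 : ν i (star e) = 1 := by rw [hj, he1 j]
  have hse0 : star e ≠ 0 := by
    intro h
    rw [h, map_zero] at hse1
    exact zero_ne_one hse1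
  have hgi : (g : D) ≠ 0 := g.ne_zero
  have hsg : star (g : D) = (g : D)⁻¹ := by
    rw [star_of_mem hgU, Units.val_inv_eq_inv_val]
  have hyq : y ^ q ≠ 0 := pow_ne_zero q hy0
  have hsyq : star y ^ q ≠ 0 := pow_ne_zero q hs0
  -- `w ^ q = g * (star e) * e⁻¹ * g`
  have hwq : (w : D) ^ q = y ^ q * (star y ^ q)⁻¹ := by
    rw [hwv, (hys.inv_right₀).mul_pow, inv_pow]
  have hese : star e = (star y ^ q)⁻¹ * (g : D)⁻¹ := by
    rw [he, star_mul, star_inv₀, star_pow, hsg]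
  have hcg1 : Commute (g : D) (y ^ q) := hyg.pow_right q
  have hcg2 : Commute (g : D) (star y ^ q) := hgs.pow_right q
  have hcy : Commute (y ^ q) (star y ^ q) := hys.pow_pow q q
  have hkey : e * (w : D) ^ q = (g : D) ^ 2 * star e := by
    rw [hese, he, hwq, sq]
    calc (g : D) * (y ^ q)⁻¹ * (y ^ q * (star y ^ q)⁻¹) =
        (g : D) * ((y ^ q)⁻¹ * y ^ q) * (star y ^ q)⁻¹ := by simp only [mul_assoc]
      _ = (g : D) * (star y ^ q)⁻¹ := by rw [inv_mul_cancel₀ hyq, mul_one]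
      _ = (g : D) * (star y ^ q)⁻¹ * ((g : D) * (g : D)⁻¹) := by
          rw [mul_inv_cancel₀ hgi, mul_one]
      _ = (g : D) * ((star y ^ q)⁻¹ * (g : D)) * (g : D)⁻¹ := by simp only [mul_assoc]
      _ = (g : D) * ((g : D) * (star y ^ q)⁻¹) * (g : D)⁻¹ := by
          rw [(hcg2.inv_right₀).eq]
      _ = _ := by simp only [mul_assoc]
  have hgn : ν i (g : D) = 1 := by
    rw [← nu_one (ν := ν i)]
    refine nu_eq (hu i) ?_
    rw [nu_one]
    refine lt_of_le_of_lt (hg i) ?_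
    have h3 : ν i (q : D) ^ 2 ≤ 1 := pow_le_one₀ (hq0 i) (hq1 i)
    nlinarith
  have hdiff : ν i ((w : D) ^ q - (g : D) ^ 2) ≤ θ ^ (k + 1) := by
    have h1 : (w : D) ^ q - (g : D) ^ 2 = (g : D) ^ 2 * (star e - 1) - (e - 1) * (w : D) ^ q := by
      rw [mul_sub, sub_mul, hkey, mul_one, one_mul]
      abel
    rw [h1]
    refine (nu_sub (hu i) _ _).trans (max_le ?_ ?_)
    · rw [map_mul, map_pow, hgn, one_pow, one_mul]
      exact hse
    · rw [map_mul, map_pow, hwn, one_pow, mul_one]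
      exact hee i
  -- the factorisation
  have hcw : Commute ((w : D) ^ N) (g : D) := by
    refine Commute.pow_left ?_ N
    rw [hwv]
    exact (hyg.mul_right hgs.inv_right₀).symm
  have hfac : ((w : D) ^ N - g) * ((w : D) ^ N + g) = (w : D) ^ q - (g : D) ^ 2 := by
    rw [sub_mul, mul_add, mul_add, hqe, two_mul, pow_add, sq, ← hcw.eq]
    abel
  have h20 : 0 < ν i (2 : D) := (ν i).pos h2
  have hq2 : ν i (q : D) ≤ ν i 2 := by
    rw [hqe, Nat.cast_mul, Nat.cast_ofNat, map_mul]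
    have := nu_nat (hu i) N
    nlinarith
  have hsum : ν i ((w : D) ^ N + g) = ν i 2 := by
    refine nu_eq (hu i) ?_
    have h3 : (w : D) ^ N + g - 2 = ((w : D) ^ N - 1) + ((g : D) - 1) := by
      rw [← one_add_one_eq_two]
      abel
    rw [h3]
    have h5 : ν i (q : D) * θ < ν i 2 := by
      have := (ν i).pos hq
      nlinarith
    refine lt_of_le_of_lt (hu i _ _) (max_lt ?_ ?_)
    · refine lt_of_le_of_lt (nu_pow_sub (hu i) ((hw1 i).trans ((hqθ i).trans hθ1.le)) N) ?_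
      exact (hw1 i).trans_lt h5
    · refine lt_of_le_of_lt (hg i) (lt_of_le_of_lt ?_ h5)
      have h6 : ν i (q : D) ^ 2 ≤ ν i (q : D) := by
        have := hq1 i
        have := hq0 i
        nlinarith
      exact mul_le_mul_of_nonneg_right h6 hθ0
  have hfin : ν i ((w : D) ^ N - g) * ν i 2 ≤ θ ^ (k + 1) := by
    rw [← hsum, ← map_mul, hfac]
    exact hdiff
  have hki := hk i
  by_contra hcon
  push Not at hcon
  nlinarith

end many

section norm

variable {K D : Type*} [Field K] [DivisionRing D] [StarRing D] [Algebra K D] {ι : Type*}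
  {ν : ι → AbsoluteValue D ℝ}

/-- **Approximate roots of unitary elements of reduced norm one.** -/
theorem exists_root_G [Finite ι] [Nonempty ι] (hu : ∀ i x y, ν i (x + y) ≤ max (ν i x) (ν i y))
    (hs : ∀ i, ∃ j, ∀ x, ν i (star x) = ν j x) (h2 : (2 : D) ≠ 0) (nrd : D →* K) {n m : ℕ}
    (hnm : ((n * m : ℕ) : D) ≠ 0) (hna : ∀ a : K, nrd (algebraMap K D a) = a ^ n)
    (hns : ∀ x, algebraMap K D (nrd (star x)) = star (algebraMap K D (nrd x)))
    (hnc : ∀ ε : ℝ, 0 < ε → ∃ δ : ℝ, 0 < δ ∧ ∀ x : D, (∀ i, ν i (x - 1) < δ) →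
      ∀ i, ν i (algebraMap K D (nrd x) - 1) < ε) {ε : ℝ} (hε : 0 < ε) :
    ∃ ε' : ℝ, 0 < ε' ∧ ∀ g ∈ UD D, nrd (g : D) = 1 → (∀ i, ν i ((g : D) - 1) < ε') →
      ∀ δ : ℝ, 0 < δ → ∃ x ∈ UD D, nrd (x : D) = 1 ∧ (∀ i, ν i ((x : D) - 1) < ε) ∧
        ∀ i, ν i ((x : D) ^ m - g) < δ := by
  classical
  have _ := Fintype.ofFinite ι
  obtain ⟨N, hNe⟩ : ∃ N, N = n * m := ⟨_, rfl⟩
  rw [← hNe] at hnm
  have hqD : ((2 * N : ℕ) : D) ≠ 0 := by
    rw [Nat.cast_mul, Nat.cast_ofNat]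
    exact mul_ne_zero h2 hnm
  -- a uniform lower bound
  obtain ⟨c, hc0, hc1, hcN, hcq⟩ : ∃ c : ℝ, 0 < c ∧ c ≤ 1 ∧ (∀ i, c ≤ ν i (N : D)) ∧
      ∀ i, c ≤ ν i ((2 * N : ℕ) : D) ^ 2 := by
    obtain ⟨c₁, h1, h1'⟩ : ∃ c : ℝ, 0 < c ∧ ∀ i, c ≤ ν i (N : D) := by
      obtain ⟨i₀, hi₀⟩ := Finite.exists_min fun i => ν i (N : D)
      exact ⟨_, (ν i₀).pos hnm, hi₀⟩
    obtain ⟨c₂, h2, h2'⟩ : ∃ c : ℝ, 0 < c ∧ ∀ i, c ≤ ν i ((2 * N : ℕ) : D) ^ 2 := by
      obtain ⟨i₀, hi₀⟩ := Finite.exists_min fun i => ν i ((2 * N : ℕ) : D) ^ 2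
      exact ⟨_, pow_pos ((ν i₀).pos hqD) 2, hi₀⟩
    exact ⟨min 1 (min c₁ c₂), lt_min one_pos (lt_min h1 h2), min_le_left _ _,
      fun i => (min_le_right _ _).trans ((min_le_left _ _).trans (h1' i)),
      fun i => (min_le_right _ _).trans ((min_le_right _ _).trans (h2' i))⟩
  obtain ⟨ε₁, hε₁, hε₁0⟩ : ∃ ε₁, ε₁ = min ε 1 ∧ 0 < ε₁ := ⟨_, rfl, lt_min hε one_pos⟩
  have hε₁ε : ε₁ ≤ ε := hε₁ ▸ min_le_left _ _
  have hε₁1 : ε₁ ≤ 1 := hε₁ ▸ min_le_right _ _
  obtain ⟨η, hη0, hη⟩ := hnc (min ε₁ c) (lt_min hε₁0 hc0)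
  obtain ⟨θ, hθ⟩ : ∃ θ, θ = min (η / 2) (ε₁ / 2) := ⟨_, rfl⟩
  have hθ0 : 0 < θ := by rw [hθ]; exact lt_min (by linarith) (by linarith)
  have hθη : θ < η := by
    have : θ ≤ η / 2 := hθ ▸ min_le_left _ _
    linarith
  have hθε : θ < ε₁ := by
    have : θ ≤ ε₁ / 2 := hθ ▸ min_le_right _ _
    linarith
  have hθ1 : θ < 1 := by linarith
  refine ⟨c * θ, by positivity, fun g hgU hg1 hg δ hδ => ?_⟩
  obtain ⟨δ₂, hδ₂0, hδ₂⟩ := hnc (δ * c) (by positivity)
  have hgθ : ∀ i, ν i ((g : D) - 1) ≤ ν i ((2 * N : ℕ) : D) ^ 2 * θ := fun i =>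
    (hg i).le.trans (mul_le_mul_of_nonneg_right (hcq i) hθ0.le)
  obtain ⟨w, hwU, hw1, hwN⟩ := exists_root_U hu hs hnm h2 hθ0.le hθ1 hgU hgθ
    (δ := min δ₂ δ) (lt_min hδ₂0 hδ)
  have one_of_lt : ∀ i, ∀ x : D, ν i (x - 1) < 1 → ν i x = 1 := fun i x hx => by
    rw [← nu_one (ν := ν i)]
    exact nu_eq (hu i) (by rw [nu_one]; exact hx)
  have hgn : ∀ i, ν i (g : D) = 1 := fun i => one_of_lt i _ (lt_of_lt_of_le (hg i) (by nlinarith))
  have hwn : ∀ i, ν i (w : D) = 1 := fun i => one_of_lt i _ ((hw1 i).trans_lt hθ1)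
  obtain ⟨a, ha⟩ : ∃ a, a = nrd (w : D) := ⟨_, rfl⟩
  have ha0 : a ≠ 0 := by
    intro h
    have h3 : nrd (w : D) * nrd ((w⁻¹ : Dˣ) : D) = 1 := by
      rw [← map_mul, Units.mul_inv, map_one]
    rw [← ha, h, zero_mul] at h3
    exact zero_ne_one h3
  have haD : algebraMap K D a ≠ 0 := (map_ne_zero_iff _ (algebraMap K D).injective).mpr ha0
  -- the first estimate for `a`
  have ha1 : ∀ i, ν i (algebraMap K D a - 1) < min ε₁ c := by
    rw [ha]
    exact hη w fun i => (hw1 i).trans_lt hθη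
  have haε : ∀ i, ν i (algebraMap K D a - 1) < ε₁ := fun i => (ha1 i).trans_le (min_le_left _ _)
  have hac : ∀ i, ν i (algebraMap K D a - 1) < c := fun i => (ha1 i).trans_le (min_le_right _ _)
  have han : ∀ i, ν i (algebraMap K D a) = 1 := fun i => one_of_lt i _ ((haε i).trans_le hε₁1)
  -- the second estimate
  have haN : ∀ i, ν i (algebraMap K D a ^ N - 1) < δ * c := by
    have h3 : nrd ((w : D) ^ N * ((g⁻¹ : Dˣ) : D)) = a ^ N := by
      have h4 : nrd (g : D) * nrd ((g⁻¹ : Dˣ) : D) = 1 := by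
        rw [← map_mul, Units.mul_inv, map_one]
      rw [hg1, one_mul] at h4
      rw [map_mul, h4, mul_one, map_pow, ha]
    intro i
    have h5 := hδ₂ ((w : D) ^ N * ((g⁻¹ : Dˣ) : D)) (fun i => by
      have h6 : (w : D) ^ N * ((g⁻¹ : Dˣ) : D) - 1 = ((w : D) ^ N - g) * ((g⁻¹ : Dˣ) : D) := by
        rw [sub_mul, Units.mul_inv]
      rw [h6, map_mul, Units.val_inv_eq_inv_val, nu_inv, hgn, inv_one, mul_one]
      exact (hwN i).trans_le (min_le_left _ _)) i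
    rwa [h3, map_pow] at h5
  have haδ : ∀ i, ν i (algebraMap K D a - 1) < δ := by
    intro i
    obtain ⟨z, hz⟩ : ∃ z, z = algebraMap K D a - 1 := ⟨_, rfl⟩
    have h3 := haN i
    have h4 := hac i
    rw [← hz] at h4 ⊢
    have h5 : algebraMap K D a = 1 + z := by rw [hz, add_sub_cancel]
    rw [h5] at h3
    rcases eq_or_ne z 0 with rfl | hz0
    · rw [map_zero]
      exact hδ
    have hz1 : 0 < ν i z := (ν i).pos hz0
    have h6 := nu_binom (hu i) (z := z) (h4.le.trans hc1) N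
    have h7 : ν i ((1 + z) ^ N - 1) = ν i ((N : D) * z) := by
      refine nu_eq (hu i) (lt_of_le_of_lt h6 ?_)
      rw [map_mul, sq]
      exact mul_lt_mul_of_pos_right (h4.trans_le (hcN i)) hz1
    rw [h7, map_mul] at h3
    have h8 := hcN i
    by_contra hcon
    push Not at hcon
    nlinarith
  -- the element
  have haU : Units.mk0 _ haD ∈ UD D := by
    have h3 : nrd (w : D) * nrd (star (w : D)) = 1 := by
      rw [← map_mul, mem_UD.mp hwU, map_one]
    rw [mem_UD, Units.val_mk0, ha, ← hns, ← map_mul, h3, map_one]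
  have hainv : ∀ i, ν i ((algebraMap K D a)⁻¹ - 1) = ν i (algebraMap K D a - 1) := fun i => by
    have h3 : (algebraMap K D a)⁻¹ - 1 = -((algebraMap K D a)⁻¹ * (algebraMap K D a - 1)) := by
      rw [mul_sub, inv_mul_cancel₀ haD, mul_one, neg_sub]
    rw [h3, AbsoluteValue.map_neg, map_mul, nu_inv, han, inv_one, one_mul]
  refine ⟨(Units.mk0 _ haD)⁻¹ * w ^ n, (UD D).mul_mem ((UD D).inv_mem haU)
    ((UD D).pow_mem hwU n), ?_, fun i => ?_, fun i => ?_⟩
  · have h3 : nrd (((Units.mk0 _ haD)⁻¹ : Dˣ) : D) = (a ^ n)⁻¹ := by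
      have h4 : nrd ((Units.mk0 _ haD : Dˣ) : D) * nrd (((Units.mk0 _ haD)⁻¹ : Dˣ) : D) = 1 := by
        rw [← map_mul, Units.mul_inv, map_one]
      rw [Units.val_mk0, hna] at h4
      exact eq_inv_of_mul_eq_one_right h4
    rw [Units.val_mul, map_mul, h3, Units.val_pow_eq_pow_val, map_pow, ← ha,
      inv_mul_cancel₀ (pow_ne_zero n ha0)]
  · have h3 : (((Units.mk0 _ haD)⁻¹ * w ^ n : Dˣ) : D) - 1 =
        ((algebraMap K D a)⁻¹ - 1) * (w : D) ^ n + ((w : D) ^ n - 1) := by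
      rw [Units.val_mul, Units.val_inv_eq_inv_val, Units.val_mk0, Units.val_pow_eq_pow_val,
        sub_mul, one_mul, sub_add_sub_cancel]
    rw [h3]
    refine lt_of_le_of_lt (hu i _ _) (max_lt ?_ ?_)
    · rw [map_mul, map_pow, hwn, one_pow, mul_one, hainv]
      exact (haε i).trans_le hε₁ε
    · refine lt_of_le_of_lt (nu_pow_sub (hu i) ((hw1 i).trans hθ1.le) n) ?_
      exact lt_of_le_of_lt (hw1 i) (hθε.trans_le hε₁ε)
  · have hcom₀ : Commute (algebraMap K D a) ((w : D) ^ n) := Algebra.commutes a _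
    have hcom : Commute (algebraMap K D a)⁻¹ ((w : D) ^ n) := hcom₀.inv_left₀
    have h3 : ((((Units.mk0 _ haD)⁻¹ * w ^ n : Dˣ) : D)) ^ m - (g : D) =
        ((algebraMap K D a)⁻¹ ^ m - 1) * (w : D) ^ N + ((w : D) ^ N - g) := by
      rw [Units.val_mul, Units.val_inv_eq_inv_val, Units.val_mk0, Units.val_pow_eq_pow_val,
        hcom.mul_pow, ← pow_mul, ← hNe, sub_mul, one_mul, sub_add_sub_cancel]
    rw [h3]
    refine lt_of_le_of_lt (hu i _ _) (max_lt ?_ ?_)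
    · rw [map_mul, map_pow, hwn, one_pow, mul_one]
      refine lt_of_le_of_lt (nu_pow_sub (hu i) ?_ m) ?_
      · rw [hainv]
        exact (haε i).le.trans hε₁1
      · rw [hainv]
        exact haδ i
    · exact (hwN i).trans_le (min_le_right _ _)

end norm

end Vale.Agent.P011.H465
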