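import Vale.Agent.P011.H465.Root
import Mathlib.Analysis.Normed.Unbundled.RingSeminorm
import Mathlib.Analysis.Normed.Ring.Lemmas

/-!
The topology on a division ring defined by finitely many nonarchimedean absolute values.
-/

open Topology Filter

set_option linter.unusedSectionVars false

namespace Vale.Agent.P011.H465

variable {D : Type*} [DivisionRing D] {ι : Type*} [Finite ι] [Nonempty ι]
  (ν : ι → AbsoluteValue D ℝ)

theorem le_sup_nu (x : D) (i : ι) : ν i x ≤ ⨆ i, ν i x :=
  le_ciSup (f := fun i => ν i x) (Set.finite_range _).bddAbove i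

theorem sup_nu_le {x : D} {C : ℝ} (h : ∀ i, ν i x ≤ C) : ⨆ i, ν i x ≤ C := ciSup_le h

theorem sup_nu_lt {x : D} {C : ℝ} : ⨆ i, ν i x < C ↔ ∀ i, ν i x < C := by
  refine ⟨fun h i => (le_sup_nu ν x i).trans_lt h, fun h => ?_⟩
  obtain ⟨i, hi⟩ := exists_eq_ciSup_of_finite (f := fun i => ν i x)
  rw [← hi]
  exact h i

/-- The maximum of finitely many absolute values. -/
noncomputable def rn : RingNorm D where
  toFun x := ⨆ i, ν i x
  map_zero' := by simp
  add_le' x y := sup_nu_le ν fun i => ((ν i).add_le x y).trans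
    (add_le_add (le_sup_nu ν x i) (le_sup_nu ν y i))
  neg' x := by simp
  mul_le' x y := sup_nu_le ν fun i => by
    rw [map_mul]
    exact mul_le_mul (le_sup_nu ν x i) (le_sup_nu ν y i) ((ν i).nonneg _)
      (((ν i).nonneg _).trans (le_sup_nu ν x i))
  eq_zero_of_map_eq_zero' x hx := by
    by_contra h
    have h1 := le_sup_nu ν x (Classical.arbitrary ι)
    have h2 := (ν (Classical.arbitrary ι)).pos h
    rw [hx] at h1
    linarith

/-- The topology. -/
@[reducible] noncomputable def topo : TopologicalSpace D :=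
  (rn ν).toNormedRing.toPseudoMetricSpace.toUniformSpace.toTopologicalSpace

theorem mem_nhds_topo {x : D} {O : Set D} :
    O ∈ @nhds D (topo ν) x ↔ ∃ ε > 0, ∀ y, (∀ i, ν i (y - x) < ε) → y ∈ O := by
  let _ := (rn ν).toNormedRing
  have h1 : ∀ y : D, dist y x = ⨆ i, ν i (y - x) := fun y => by
    rw [dist_eq_norm]
    rfl
  rw [Metric.mem_nhds_iff]
  refine exists_congr fun ε => and_congr_right fun _ => ⟨fun h y hy => h ?_, fun h y hy => h y ?_⟩
  · rw [Metric.mem_ball, h1, sup_nu_lt]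
    exact hy
  · rw [Metric.mem_ball, h1, sup_nu_lt] at hy
    exact hy

theorem isTopologicalRing_topo : @IsTopologicalRing D (topo ν) _ := by
  let _ := (rn ν).toNormedRing
  exact inferInstanceAs (IsTopologicalRing D)

theorem t1_topo : @T1Space D (topo ν) := by
  let _ := (rn ν).toNormedRing
  exact inferInstanceAs (T1Space D)

theorem tendsto_topo {α : Type*} {l : Filter α} {f : α → D} {x : D} :
    @Tendsto α D f l (@nhds D (topo ν) x) ↔ ∀ i, Tendsto (fun a => ν i (f a - x)) l (𝓝 0) := by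
  constructor
  · intro h i
    rw [Metric.tendsto_nhds]
    intro ε hε
    have h1 : {y : D | ν i (y - x) < ε} ∈ @nhds D (topo ν) x :=
      (mem_nhds_topo ν).mpr ⟨ε, hε, fun y hy => hy i⟩
    filter_upwards [h h1] with a ha
    rw [Real.dist_0_eq_abs, abs_of_nonneg ((ν i).nonneg _)]
    exact ha
  · intro h O hO
    obtain ⟨ε, hε, hO⟩ := (mem_nhds_topo ν).mp hO
    have h1 : ∀ᶠ a in l, ∀ i, ν i (f a - x) < ε := by
      rw [eventually_all]
      intro i
      have h2 := (Metric.tendsto_nhds.mp (h i)) ε hε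
      filter_upwards [h2] with a ha
      rwa [Real.dist_0_eq_abs, abs_of_nonneg ((ν i).nonneg _)] at ha
    exact mem_map.mpr (h1.mono fun a ha => hO _ ha)

theorem continuous_topo {f : D → D} (hadd : ∀ x y, f (x - y) = f x - f y)
    (h : ∀ i, ∃ (C : ℝ) (j : ι), ∀ x, ν i (f x) ≤ C * ν j x) :
    @Continuous D D (topo ν) (topo ν) f := by
  let _ := topo ν
  rw [continuous_iff_continuousAt]
  intro x
  refine (tendsto_topo ν).mpr fun i => ?_
  obtain ⟨C, j, hC⟩ := h i
  have h1 : Tendsto (fun y => ν j (y - x)) (𝓝 x) (𝓝 0) :=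
    (tendsto_topo ν (f := fun y => y)).mp tendsto_id j
  have h2 : Tendsto (fun y => C * ν j (y - x)) (𝓝 x) (𝓝 0) := by
    simpa using h1.const_mul C
  refine squeeze_zero (fun y => (ν i).nonneg _) (fun y => ?_) h2
  rw [← hadd]
  exact hC _

theorem continuousStar_topo [StarRing D] (hs : ∀ i, ∃ j, ∀ x, ν i (star x) = ν j x) :
    @ContinuousStar D (topo ν) _ := by
  let _ := topo ν
  refine ⟨continuous_topo ν (fun x y => star_sub x y) fun i => ?_⟩
  obtain ⟨j, hj⟩ := hs i
  exact ⟨1, j, fun x => by rw [hj, one_mul]⟩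

theorem continuousInv_topo (hu : ∀ i x y, ν i (x + y) ≤ max (ν i x) (ν i y)) :
    @ContinuousInv₀ D _ _ (topo ν) := by
  let _ := topo ν
  refine ⟨fun x hx => ?_⟩
  refine (tendsto_topo ν).mpr fun i => ?_
  have h1 : Tendsto (fun y => ν i (y - x)) (𝓝 x) (𝓝 0) :=
    (tendsto_topo ν (f := fun y => y)).mp tendsto_id i
  have hx0 : 0 < ν i x := (ν i).pos hx
  have h2 : Tendsto (fun y => ν i (y - x) * ((ν i x)⁻¹ * (ν i x)⁻¹)) (𝓝 x) (𝓝 0) := by
    simpa using h1.mul_const ((ν i x)⁻¹ * (ν i x)⁻¹)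
  refine squeeze_zero' (Eventually.of_forall fun y => (ν i).nonneg _) ?_ h2
  have h3 : ∀ᶠ y in 𝓝 x, ν i (y - x) < ν i x := by
    have := (Metric.tendsto_nhds.mp h1) _ hx0
    filter_upwards [this] with a ha
    rwa [Real.dist_0_eq_abs, abs_of_nonneg ((ν i).nonneg _)] at ha
  filter_upwards [h3] with y hy
  have h4 : ν i y = ν i x := nu_eq (hu i) hy
  have hy0 : y ≠ 0 := by
    intro h
    rw [h, map_zero] at h4
    linarith
  have h5 : y⁻¹ - x⁻¹ = -(y⁻¹ * (y - x) * x⁻¹) := by
    rw [mul_sub, inv_mul_cancel₀ hy0, sub_mul, one_mul, mul_assoc, mul_inv_cancel₀ hx, mul_one,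
      neg_sub]
  rw [h5, AbsoluteValue.map_neg, map_mul, map_mul, nu_inv, nu_inv, h4]
  refine le_of_eq ?_
  ring

end Vale.Agent.P011.H465
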